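import Vale.Agent.N129.Closed
import Vale.Agent.P129.H3.Cx

/-! The real and the complex separable quotient problem are equivalent. -/

open Set Filter Topology

namespace Vale.Agent.N129

open Vale.Agent.P129Z.S Vale.Agent.P129

universe u

theorem hasSQ_of_functionals {𝕜 : Type} [RCLike 𝕜] {X : Type u} [NormedAddCommGroup X]
    [NormedSpace 𝕜 X] [CompleteSpace X] (f : ℕ → StrongDual 𝕜 X) (h1 : ∀ n, 1 ≤ ‖f n‖)
    (h2 : Dense {x | ∀ᶠ n in atTop, f n x = 0}) : HasSeparableQuotient 𝕜 X := by
  refine exists_separable_quotient_of_unbounded (fun n => (n : 𝕜) • f n) (fun R => ?_)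
    (h2.mono fun x hx => ?_)
  · obtain ⟨k, hk⟩ := exists_nat_gt R
    refine ⟨k, hk.trans_le ?_⟩
    rw [norm_smul, RCLike.norm_natCast]
    exact le_mul_of_one_le_right (Nat.cast_nonneg k) (h1 k)
  · obtain ⟨N, hN⟩ := eventually_atTop.1 hx
    refine ⟨∑ k ∈ Finset.range N, ‖((k : 𝕜) • f k) x‖, fun k => ?_⟩
    rcases lt_or_ge k N with hk | hk
    · exact Finset.single_le_sum (f := fun k : ℕ => ‖((k : 𝕜) • f k) x‖) (fun _ _ => norm_nonneg _)
        (Finset.mem_range.2 hk)
    · have h3 : ((k : 𝕜) • f k) x = 0 := by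
        change (k : 𝕜) • f k x = 0
        rw [hN k hk, smul_zero]
      rw [h3, norm_zero]
      exact Finset.sum_nonneg fun _ _ => norm_nonneg _

/-- The conjugate space. -/
def Conj (X : Type u) : Type u := X

variable {X : Type u} [NormedAddCommGroup X] [NormedSpace ℂ X]

instance : NormedAddCommGroup (Conj X) := inferInstanceAs (NormedAddCommGroup X)

instance [CompleteSpace X] : CompleteSpace (Conj X) := inferInstanceAs (CompleteSpace X)

noncomputable instance : Module ℂ (Conj X) := Module.compHom X (starRingEnd ℂ)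

/-- the identity map -/
def Conj.val (x : Conj X) : X := x

/-- the identity map -/
def Conj.mk (x : X) : Conj X := x

theorem Conj.val_smul (c : ℂ) (x : Conj X) : (c • x).val = (starRingEnd ℂ) c • x.val := rfl

omit [NormedSpace ℂ X] in
theorem Conj.val_add (x y : Conj X) : (x + y).val = x.val + y.val := rfl

omit [NormedSpace ℂ X] in
theorem Conj.norm_val (x : Conj X) : ‖x.val‖ = ‖x‖ := rfl

noncomputable instance : NormedSpace ℂ (Conj X) where
  norm_smul_le c x := by
    rw [← Conj.norm_val, Conj.val_smul, norm_smul, Complex.norm_conj, Conj.norm_val]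

/-- a functional on the conjugate space gives one on the space -/
noncomputable def Conj.down (f : StrongDual ℂ (Conj X)) : StrongDual ℂ X :=
  LinearMap.mkContinuous
    { toFun := fun x => (starRingEnd ℂ) (f (Conj.mk x))
      map_add' := fun x y => by
        rw [show Conj.mk (x + y) = Conj.mk x + Conj.mk y from rfl, map_add, map_add]
      map_smul' := fun c x => by
        have h1 : Conj.mk (c • x) = (starRingEnd ℂ) c • Conj.mk x := by
          change c • x = (starRingEnd ℂ) ((starRingEnd ℂ) c) • x
          rw [Complex.conj_conj]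
        rw [h1, map_smul, smul_eq_mul, map_mul, Complex.conj_conj]
        rfl } ‖f‖ fun x => by
      change ‖(starRingEnd ℂ) (f (Conj.mk x))‖ ≤ _
      rw [Complex.norm_conj]
      exact f.le_opNorm _

/-- a functional on the space gives one on the conjugate space -/
noncomputable def Conj.up (f : StrongDual ℂ X) : StrongDual ℂ (Conj X) :=
  LinearMap.mkContinuous
    { toFun := fun x => (starRingEnd ℂ) (f x.val)
      map_add' := fun x y => by rw [Conj.val_add, map_add, map_add]
      map_smul' := fun c x => by
        rw [Conj.val_smul, map_smul, smul_eq_mul, map_mul, Complex.conj_conj]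
        rfl } ‖f‖ fun x => by
      change ‖(starRingEnd ℂ) (f x.val)‖ ≤ _
      rw [Complex.norm_conj]
      exact f.le_opNorm _

theorem hasSQ_of_conj [CompleteSpace X] (h : HasSeparableQuotient ℂ (Conj X)) :
    HasSeparableQuotient ℂ X := by
  obtain ⟨f, hf, hd⟩ := exists_functionals h
  refine hasSQ_of_functionals (fun n => Conj.down (f n)) (fun n => ?_) (Dense.mono ?_ hd)
  · rw [← hf n]
    refine ContinuousLinearMap.opNorm_le_bound _ (norm_nonneg _) fun x => ?_
    have h1 := (Conj.down (f n)).le_opNorm x.val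
    change ‖(starRingEnd ℂ) (f n x)‖ ≤ _ at h1
    rwa [Complex.norm_conj] at h1
  · intro x hx
    refine Eventually.mono hx fun n hn => ?_
    change (starRingEnd ℂ) (f n x) = 0
    rw [hn, map_zero]

/-- For a complex Banach space, real and complex separable quotients exist simultaneously. -/
theorem hasSQ_complex_iff [CompleteSpace X] :
    HasSeparableQuotient ℂ X ↔ HasSeparableQuotient ℝ X := by
  constructor
  · rintro ⟨M, hM, hs, hd⟩
    refine ⟨M.restrictScalars ℝ, hM, hs, fun hfin => hd ?_⟩
    have h1 : Module.Finite ℝ (X ⧸ M) := hfin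
    exact Module.Finite.of_restrictScalars_finite ℝ ℂ (X ⧸ M)
  intro h
  obtain ⟨f, hf, hd⟩ := exists_functionals h
  let g : ℕ → StrongDual ℂ X := fun n => (f n).extendRCLike
  let F : ℕ → StrongDual ℂ (X × Conj X) := fun n => (g n).coprod (Conj.up (g n))
  let Φ : X × X → X × Conj X := fun p => (p.1 + Complex.I • p.2, Conj.mk (p.1 - Complex.I • p.2))
  have hΦ : Continuous Φ := by
    refine Continuous.prodMk (by fun_prop) ?_
    change Continuous fun p : X × X => p.1 - Complex.I • p.2
    fun_prop
  have hΦs : Function.Surjective Φ := by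
    rintro ⟨a, b⟩
    refine ⟨((1 / 2 : ℂ) • (a + b.val), (-Complex.I / 2) • (a - b.val)), Prod.ext ?_ ?_⟩
    · change (1 / 2 : ℂ) • (a + b.val) + Complex.I • (-Complex.I / 2) • (a - b.val) = a
      rw [smul_smul, show Complex.I * (-Complex.I / 2) = 1 / 2 by
        rw [mul_div_assoc', mul_neg, Complex.I_mul_I, neg_neg]]
      module
    · change (1 / 2 : ℂ) • (a + b.val) - Complex.I • (-Complex.I / 2) • (a - b.val) = b.val
      rw [smul_smul, show Complex.I * (-Complex.I / 2) = 1 / 2 by
        rw [mul_div_assoc', mul_neg, Complex.I_mul_I, neg_neg]]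
      module
  have hF : ∀ n p, F n (Φ p) = 2 * f n p.1 + 2 * Complex.I * f n p.2 := by
    intro n p
    change g n (p.1 + Complex.I • p.2) + (starRingEnd ℂ) (g n (p.1 - Complex.I • p.2)) = _
    have h1 : ∀ x, (g n x).re = f n x := fun x =>
      StrongDual.re_extendRCLike_apply (𝕜 := ℂ) (f n) x
    rw [map_add, map_sub, map_smul, ← h1, ← h1]
    apply Complex.ext <;> simp <;> ring
  have h1 : HasSeparableQuotient ℂ (X × Conj X) := by
    refine hasSQ_of_functionals F (fun n => ?_) ?_
    · rw [← hf n]
      refine ContinuousLinearMap.opNorm_le_bound _ (norm_nonneg _) fun x => ?_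
      have h2 := (F n).le_opNorm (Φ (x, 0))
      have h3 : ‖Φ (x, 0)‖ = ‖x‖ := by
        change max ‖x + Complex.I • (0 : X)‖ ‖x - Complex.I • (0 : X)‖ = _
        rw [smul_zero, add_zero, sub_zero, max_self]
      rw [hF, h3, map_zero, Complex.ofReal_zero, mul_zero, add_zero, norm_mul, Complex.norm_real,
        Complex.norm_ofNat] at h2
      linarith [norm_nonneg (f n x)]
    · refine (hΦs.denseRange.dense_image hΦ (hd.prod hd)).mono ?_
      rintro _ ⟨p, ⟨h2, h3⟩, rfl⟩
      filter_upwards [h2, h3] with n h4 h5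
      rw [hF, h4, h5]
      simp
  exact (hasSQ_prod h1).elim id hasSQ_of_conj

/-- The real and the complex problem are equivalent. -/
theorem real_iff_complex :
    (∀ (X : Type u) [NormedAddCommGroup X] [NormedSpace ℝ X] [CompleteSpace X],
      ¬ FiniteDimensional ℝ X → HasSeparableQuotient ℝ X) ↔
    (∀ (X : Type u) [NormedAddCommGroup X] [NormedSpace ℂ X] [CompleteSpace X],
      ¬ FiniteDimensional ℂ X → HasSeparableQuotient ℂ X) := by
  constructor
  · intro h X _ _ _ hX
    exact hasSQ_complex_iff.2 (h X fun h1 => hX (Module.Finite.of_restrictScalars_finite ℝ ℂ X))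
  · intro h X _ _ _ hX
    by_contra h1
    exact H3.extension_no_quotient (𝕜 := ℂ) h1 (fun h2 => (hasSQ_prod h2).elim h1 h1)
      (h _ (H3.extension_not_finite hX))

end Vale.Agent.N129
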