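import Vale.Agent.N129.Defs
import Vale.Agent.N129.Scalars

/-! Spaces whose separable subspaces have separable duals are Asplund spaces. -/

open Set Filter Topology Cardinal

namespace Vale.Agent.N129

universe u v

variable {X : Type u} [NormedAddCommGroup X] [NormedSpace ℝ X]
  {Y : Type v} [NormedAddCommGroup Y] [NormedSpace ℝ Y]

/-- At most `κ` functionals approximate all functionals, uniformly on `S`. -/
def Appr (κ : Cardinal.{0}) (S : Set X) : Prop :=
  ∃ (ι : Type) (g : ι → StrongDual ℝ X), #ι ≤ κ ∧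
    ∀ (f : StrongDual ℝ X) (ε : ℝ), 0 < ε → ∃ i, ∀ x ∈ S, |f x - g i x| ≤ ε * ‖x‖

theorem Appr.mono {κ : Cardinal.{0}} {S T : Set X} (h : Appr κ T) (hST : S ⊆ T) : Appr κ S := by
  obtain ⟨ι, g, h1, h2⟩ := h
  refine ⟨ι, g, h1, fun f ε hε => ?_⟩
  obtain ⟨i, hi⟩ := h2 f ε hε
  exact ⟨i, fun x hx => hi x (hST hx)⟩

theorem Appr.closure {κ : Cardinal.{0}} {S : Set X} (h : Appr κ S) : Appr κ (closure S) := by
  obtain ⟨ι, g, h1, h2⟩ := h
  refine ⟨ι, g, h1, fun f ε hε => ?_⟩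
  obtain ⟨i, hi⟩ := h2 f ε hε
  exact ⟨i, fun x hx => closure_minimal (t := {x | |f x - g i x| ≤ ε * ‖x‖}) hi
    (isClosed_le (by fun_prop) (by fun_prop)) hx⟩

theorem Appr.congr {κ : Cardinal.{0}} {S : Set X} (h : Appr κ S) (e : Y ≃L[ℝ] X) :
    Appr κ (e ⁻¹' S) := by
  obtain ⟨ι, g, h1, h2⟩ := h
  refine ⟨ι, fun i => (g i).comp (e : Y →L[ℝ] X), h1, fun f ε hε => ?_⟩
  obtain ⟨i, hi⟩ := h2 (f.comp (e.symm : X →L[ℝ] Y)) (ε / (‖(e : Y →L[ℝ] X)‖ + 1))
    (by positivity)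
  refine ⟨i, fun y hy => ?_⟩
  have h3 := hi (e y) hy
  have h4 : ‖e y‖ ≤ (‖(e : Y →L[ℝ] X)‖ + 1) * ‖y‖ := by
    have := (e : Y →L[ℝ] X).le_opNorm y
    rw [ContinuousLinearEquiv.coe_coe] at this
    nlinarith [norm_nonneg y]
  simp only [ContinuousLinearMap.comp_apply, ContinuousLinearEquiv.coe_coe,
    ContinuousLinearEquiv.symm_apply_apply] at h3 ⊢
  refine h3.trans ((mul_le_mul_of_nonneg_left h4 (by positivity)).trans (le_of_eq ?_))
  field_simp

theorem Appr.prod {κ : Cardinal.{0}} (hκ : ℵ₀ ≤ κ) {S : Set X} {T : Set Y} (h : Appr κ S)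
    (k : Appr κ T) : Appr κ (S ×ˢ T) := by
  obtain ⟨ι, g, h1, h2⟩ := h
  obtain ⟨ι', g', k1, k2⟩ := k
  refine ⟨ι × ι', fun p => (g p.1).coprod (g' p.2), ?_, fun f ε hε => ?_⟩
  · rw [Cardinal.mk_prod, Cardinal.lift_id, Cardinal.lift_id, ← Cardinal.mul_eq_self hκ]
    gcongr
  · obtain ⟨i, hi⟩ := h2 (f.comp (ContinuousLinearMap.inl ℝ X Y)) (ε / 2) (by positivity)
    obtain ⟨j, hj⟩ := k2 (f.comp (ContinuousLinearMap.inr ℝ X Y)) (ε / 2) (by positivity)
    refine ⟨(i, j), ?_⟩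
    rintro ⟨x, y⟩ ⟨hx, hy⟩
    have h3 := hi x hx
    have h4 := hj y hy
    have h5 : f (x, y) = f (x, 0) + f (0, y) := by rw [← map_add]; simp
    have h6 := norm_fst_le (x, y)
    have h7 := norm_snd_le (x, y)
    simp only [ContinuousLinearMap.comp_apply, ContinuousLinearMap.inl_apply,
      ContinuousLinearMap.inr_apply, ContinuousLinearMap.coprod_apply] at h3 h4 h6 h7 ⊢
    rw [h5, show f (x, 0) + f (0, y) - (g i x + g' j y) =
      (f (x, 0) - g i x) + (f (0, y) - g' j y) by ring]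
    refine (abs_add_le _ _).trans ?_
    nlinarith

/-- All separable subsets have separable sets of restricted functionals; the dual has density at
most `ℵ₁`. -/
def Good (X : Type u) [NormedAddCommGroup X] [NormedSpace ℝ X] : Prop :=
  (∀ S : Set X, TopologicalSpace.IsSeparable S → Appr ℵ₀ S) ∧ Appr (ℵ_ 1) (univ : Set X)

theorem Good.congr (h : Good X) (e : Y ≃L[ℝ] X) : Good Y :=
  ⟨fun _ hS => ((h.1 _ (hS.image e.continuous)).congr e).mono (subset_preimage_image _ _),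
    h.2.congr e⟩

theorem Good.prod (h : Good X) (k : Good Y) : Good (X × Y) :=
  ⟨fun _ hS => ((h.1 _ (hS.image continuous_fst)).prod le_rfl
      (k.1 _ (hS.image continuous_snd))).mono fun p hp => ⟨⟨p, hp, rfl⟩, ⟨p, hp, rfl⟩⟩,
    (h.2.prod (Cardinal.aleph0_le_aleph 1) k.2).mono fun _ _ => ⟨trivial, trivial⟩⟩

/-- The dual of a subspace over `𝕜`. -/
theorem Appr.dense_dual {𝕜 : Type} [RCLike 𝕜] {Z : Type u} [NormedAddCommGroup Z]
    [NormedSpace 𝕜 Z] [NormedSpace ℝ Z] [IsScalarTower ℝ 𝕜 Z] {κ : Cardinal.{0}}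
    (Y : Submodule 𝕜 Z) (h : Appr κ (Y : Set Z)) :
    ∃ (ι : Type) (g : ι → StrongDual 𝕜 Y), #ι ≤ κ ∧ DenseRange g := by
  obtain ⟨ι, g, h1, h2⟩ := h
  refine ⟨ι, fun i => ((g i).extendRCLike : StrongDual 𝕜 Z).comp Y.subtypeL, h1, ?_⟩
  rw [Metric.denseRange_iff]
  intro φ ε hε
  obtain ⟨Φ, hΦ, -⟩ := exists_extension_norm_eq Y φ
  let f : StrongDual ℝ Z := (StrongDual.extendRCLikeₗ (𝕜 := 𝕜)).symm Φ
  have hf : (f.extendRCLike : StrongDual 𝕜 Z) = Φ :=
    (StrongDual.extendRCLikeₗ (𝕜 := 𝕜)).apply_symm_apply Φ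
  obtain ⟨i, hi⟩ := h2 f (ε / 4) (by positivity)
  refine ⟨i, ?_⟩
  rw [dist_eq_norm]
  refine lt_of_le_of_lt (ContinuousLinearMap.opNorm_le_bound _ (M := ε / 2) (by positivity)
    fun y => ?_) (by linarith)
  have h3 : (φ - ((g i).extendRCLike : StrongDual 𝕜 Z).comp Y.subtypeL) y =
      ((f y - g i y : ℝ) : 𝕜) - RCLike.I *
        ((f ((RCLike.I : 𝕜) • (y : Z)) - g i ((RCLike.I : 𝕜) • (y : Z)) : ℝ) : 𝕜) := by
    change φ y - ((g i).extendRCLike : StrongDual 𝕜 Z) y = _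
    rw [← hΦ, ← hf, StrongDual.extendRCLike_apply, StrongDual.extendRCLike_apply]
    push_cast
    ring
  have h4 := hi y y.2
  have h5 := hi _ (Y.smul_mem (RCLike.I : 𝕜) y.2)
  have h6 : ‖(RCLike.I : 𝕜)‖ ≤ 1 := by
    rcases RCLike.I_eq_zero_or_im_I_eq_one (K := 𝕜) with h | h
    · rw [h, norm_zero]; exact zero_le_one
    · exact (RCLike.norm_I_of_ne_zero fun h0 => by simp [h0] at h).le
  have h7 : ‖(RCLike.I : 𝕜) • (y : Z)‖ ≤ ‖(y : Z)‖ := by
    rw [norm_smul]
    exact mul_le_of_le_one_left (norm_nonneg _) h6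
  rw [h3]
  refine (norm_sub_le _ _).trans ?_
  rw [norm_mul, RCLike.norm_ofReal, RCLike.norm_ofReal]
  have h8 := mul_le_of_le_one_left
    (abs_nonneg (f ((RCLike.I : 𝕜) • (y : Z)) - g i ((RCLike.I : 𝕜) • (y : Z)))) h6
  have h9 : ‖y‖ = ‖(y : Z)‖ := rfl
  nlinarith

/-- Subgradients. -/
theorem exists_subgradient {U : Set X} {f : X → ℝ} (hU : IsOpen U) (hf : ConvexOn ℝ U f)
    (hc : ContinuousOn f U) {x : X} (hx : x ∈ U) :
    ∃ φ : StrongDual ℝ X, ∀ z ∈ U, f x + φ (z - x) ≤ f z := by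
  have h1 : IsOpen {p : X × ℝ | p.1 ∈ U ∧ f p.1 < p.2} := by
    have h2 : ContinuousOn (fun p : X × ℝ => p.2 - f p.1) (Prod.fst ⁻¹' U) :=
      continuousOn_snd.sub (hc.comp continuousOn_fst fun p hp => hp)
    have h3 := h2.isOpen_inter_preimage (hU.preimage continuous_fst) (isOpen_Ioi (a := (0 : ℝ)))
    convert h3 using 1
    ext p
    simp
  obtain ⟨L, hL⟩ := geometric_hahn_banach_open_point hf.convex_strict_epigraph h1
    (x := (x, f x)) (fun h => lt_irrefl _ h.2)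
  have h2 : ∀ (z : X) (t : ℝ), L (z, t) = L (z, 0) + t * L (0, 1) := by
    intro z t
    rw [← smul_eq_mul, ← map_smul, ← map_add]
    simp
  have h3 : L (0, 1) < 0 := by
    have := hL (x, f x + 1) ⟨hx, lt_add_one _⟩
    rw [h2 x (f x + 1), h2 x (f x)] at this
    linarith
  refine ⟨(-L (0, 1))⁻¹ • L.comp (ContinuousLinearMap.inl ℝ X ℝ), fun z hz => ?_⟩
  have h4 : L (z, 0) - L (x, 0) ≤ -L (0, 1) * (f z - f x) := by
    refine le_of_forall_pos_le_add fun ε hε => ?_
    have h5 := hL (z, f z + ε / -L (0, 1)) ⟨hz, lt_add_of_pos_right _ (div_pos hε (by linarith))⟩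
    rw [h2 z, h2 x, add_mul, div_neg, neg_mul, div_mul_cancel₀ _ h3.ne] at h5
    linarith
  have h5 : ((-L (0, 1))⁻¹ • L.comp (ContinuousLinearMap.inl ℝ X ℝ)) (z - x) =
      (-L (0, 1))⁻¹ * (L (z, 0) - L (x, 0)) := by
    rw [← map_sub]
    simp
  rw [h5]
  have h6 : (-L (0, 1))⁻¹ * (L (z, 0) - L (x, 0)) ≤ f z - f x := by
    rw [inv_mul_le_iff₀ (by linarith)]
    exact h4
  linarith

/-- Separable reduction. -/
theorem exists_closed_sep (F : X → ℕ → X × X) (x₀ : X) : ∃ (E : Submodule ℝ X) (C : Set X),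
    IsClosed (E : Set X) ∧ TopologicalSpace.IsSeparable (E : Set X) ∧ x₀ ∈ E ∧ C ⊆ E ∧
      (E : Set X) ⊆ closure C ∧ ∀ a ∈ C, ∀ k, (F a k).1 ∈ E ∧ (F a k).2 ∈ E := by
  have h1 : ∀ S : Set X, ∃ c : Set X, S.Countable →
      c.Countable ∧ (Submodule.span ℝ S : Set X) ⊆ closure c := by
    intro S
    by_cases hS : S.Countable
    · obtain ⟨c, hc⟩ := hS.isSeparable.span (R := ℝ)
      exact ⟨c, fun _ => hc⟩
    · exact ⟨∅, fun h => absurd h hS⟩
  choose c hc using h1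
  let S : ℕ → Set X := fun n => Nat.rec {x₀}
    (fun _ T => T ∪ c T ∪ ⋃ a ∈ T, ⋃ k, {(F a k).1, (F a k).2}) n
  have hS : ∀ n, S (n + 1) = S n ∪ c (S n) ∪ ⋃ a ∈ S n, ⋃ k, {(F a k).1, (F a k).2} :=
    fun n => rfl
  have h2 : ∀ n, (S n).Countable := by
    intro n
    induction n with
    | zero => exact countable_singleton _
    | succ n ih =>
      rw [hS]
      exact (ih.union (hc _ ih).1).union
        (ih.biUnion fun a _ => countable_iUnion fun k => (toFinite _).countable)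
  have h3 : Monotone S := monotone_nat_of_le_succ fun n => by
    rw [hS]
    exact subset_union_left.trans subset_union_left
  have h4 : (⋃ n, S n) ⊆ (Submodule.span ℝ (⋃ n, S n)).topologicalClosure :=
    Submodule.subset_span.trans subset_closure
  refine ⟨(Submodule.span ℝ (⋃ n, S n)).topologicalClosure, ⋃ n, S n,
    Submodule.isClosed_topologicalClosure _, (countable_iUnion h2).isSeparable.span.closure,
    h4 (mem_iUnion.2 ⟨0, rfl⟩), h4, ?_, fun a ha k => ?_⟩
  · refine closure_minimal (fun x hx => ?_) isClosed_closure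
    have hx' : x ∈ ⨆ n, Submodule.span ℝ (S n) := by
      rw [← Submodule.span_iUnion]
      exact hx
    obtain ⟨n, hn⟩ := (Submodule.mem_iSup_of_directed (fun n => Submodule.span ℝ (S n))
      (Monotone.directed_le fun m n h => Submodule.span_mono (h3 h))).1 hx'
    refine closure_mono ?_ ((hc _ (h2 n)).2 hn)
    refine subset_trans ?_ (subset_iUnion S (n + 1))
    rw [hS]
    exact subset_union_right.trans subset_union_left
  · obtain ⟨n, hn⟩ := mem_iUnion.1 ha
    have h5 : ({(F a k).1, (F a k).2} : Set X) ⊆ ⋃ n, S n := by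
      refine subset_trans ?_ (subset_iUnion S (n + 1))
      rw [hS]
      exact subset_trans (subset_iUnion₂_of_subset a hn (subset_iUnion
        (fun k => ({(F a k).1, (F a k).2} : Set X)) k)) subset_union_right
    exact ⟨h4 (h5 (by simp)), h4 (h5 (by simp))⟩

/-- Every open set contains a ball on which `f` is almost affine. -/
theorem exists_ball [CompleteSpace X]
    (h : ∀ S : Set X, TopologicalSpace.IsSeparable S → Appr ℵ₀ S) {U : Set X} {f : X → ℝ}
    (hU : IsOpen U) (hf : ConvexOn ℝ U f) (hc : ContinuousOn f U) {U' : Set X} (hU' : IsOpen U')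
    (hsub : U' ⊆ U) (hne : U'.Nonempty) {ε : ℝ} (hε : 0 < ε) :
    ∃ a r, 0 < r ∧ Metric.ball a r ⊆ U' ∧ ∀ z y, z ∈ Metric.ball a r → z + y ∈ Metric.ball a r →
      z - y ∈ Metric.ball a r → f (z + y) + f (z - y) - 2 * f z ≤ ε * ‖y‖ := by
  by_contra hcon
  push Not at hcon
  have h1 : ∀ (a : X) (k : ℕ), ∃ p : X × X, Metric.ball a (1 / ((k : ℝ) + 1)) ⊆ U' →
      p.1 ∈ Metric.ball a (1 / ((k : ℝ) + 1)) ∧ p.1 + p.2 ∈ Metric.ball a (1 / ((k : ℝ) + 1)) ∧
      p.1 - p.2 ∈ Metric.ball a (1 / ((k : ℝ) + 1)) ∧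
      ε * ‖p.2‖ < f (p.1 + p.2) + f (p.1 - p.2) - 2 * f p.1 := by
    intro a k
    by_cases hb : Metric.ball a (1 / ((k : ℝ) + 1)) ⊆ U'
    · obtain ⟨z, y, h2⟩ := hcon a _ (by positivity) hb
      exact ⟨(z, y), fun _ => h2⟩
    · exact ⟨0, fun h2 => absurd h2 hb⟩
  choose F hF using h1
  obtain ⟨x₀, hx₀⟩ := hne
  obtain ⟨E, C, hE, hEs, hxE, hCE, hEC, hFE⟩ := exists_closed_sep F x₀
  obtain ⟨ι, g, hι, hg⟩ := h _ hEs
  have : Countable ι := Cardinal.mk_le_aleph0_iff.1 hι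
  have : CompleteSpace E := hE.completeSpace_coe
  let A : ι → Set X := fun i => {p | p ∈ E ∧ p ∈ U ∧ ∃ φ : StrongDual ℝ X,
    (∀ z ∈ U, f p + φ (z - p) ≤ f z) ∧ ∀ v ∈ E, |φ v - g i v| ≤ ε / 2 * ‖v‖}
  let K : Option ι → Set E := fun o => Option.rec ((↑) ⁻¹' U'ᶜ) (fun i => (↑) ⁻¹' closure (A i)) o
  have h2 : Dense (⋃ o, interior (K o)) := by
    refine dense_iUnion_interior_of_closed (fun o => ?_) (eq_univ_of_forall fun x => ?_)
    · cases o with
      | none => exact hU'.isClosed_compl.preimage continuous_subtype_val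
      | some i => exact isClosed_closure.preimage continuous_subtype_val
    · by_cases hx : (x : X) ∈ U'
      · obtain ⟨φ, hφ⟩ := exists_subgradient hU hf hc (hsub hx)
        obtain ⟨i, hi⟩ := hg φ (ε / 2) (by positivity)
        exact mem_iUnion.2 ⟨some i, subset_closure ⟨x.2, hsub hx, φ, hφ, hi⟩⟩
      · exact mem_iUnion.2 ⟨none, hx⟩
  obtain ⟨b, hbU, hb⟩ := h2.inter_open_nonempty (Subtype.val ⁻¹' U')
    (hU'.preimage continuous_subtype_val) ⟨⟨x₀, hxE⟩, hx₀⟩
  obtain ⟨o, ho⟩ := mem_iUnion.1 hb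
  cases o with
  | none => exact interior_subset ho hbU
  | some i =>
    obtain ⟨ρ, hρ, h3⟩ := Metric.mem_nhds_iff.1 (mem_interior_iff_mem_nhds.1 ho)
    obtain ⟨ρ', hρ', h4⟩ := Metric.isOpen_iff.1 hU' b hbU
    obtain ⟨k, hk⟩ := exists_nat_one_div_lt (show 0 < min ρ ρ' / 2 by positivity)
    obtain ⟨a, ha, hab⟩ := Metric.mem_closure_iff.1 (hEC b.2) (min ρ ρ' / 2) (by positivity)
    have h5 : Metric.ball a (1 / ((k : ℝ) + 1)) ⊆ Metric.ball (b : X) (min ρ ρ') :=
      Metric.ball_subset_ball' (by rw [dist_comm]; linarith)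
    have h6 : Metric.ball a (1 / ((k : ℝ) + 1)) ⊆ U' :=
      h5.trans ((Metric.ball_subset_ball (min_le_right _ _)).trans h4)
    obtain ⟨h7, h8, h9, h10⟩ := hF a k h6
    obtain ⟨hz, hy⟩ := hFE a ha k
    set z := (F a k).1
    set y := (F a k).2
    have key : ∀ p ∈ E, p ∈ Metric.ball a (1 / ((k : ℝ) + 1)) →
        f p ≤ f z + g i (p - z) + ε / 2 * ‖p - z‖ := by
      intro p hp hpb
      have h11 : p ∈ closure (A i) :=
        h3 (show (⟨p, hp⟩ : E) ∈ Metric.ball b ρ from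
          Metric.ball_subset_ball (min_le_left _ _) (h5 hpb))
      refine ContinuousWithinAt.closure_le h11
        ((hc.continuousAt (hU.mem_nhds (hsub (h6 hpb)))).continuousWithinAt)
        (f := f) (g := fun p => f z + g i (p - z) + ε / 2 * ‖p - z‖)
        (Continuous.continuousWithinAt (by fun_prop)) ?_
      rintro q ⟨hq, -, φ, h12, h13⟩
      have h14 := h12 z (hsub (h6 h7))
      have h15 := (abs_le.1 (h13 (q - z) (E.sub_mem hq hz))).2
      rw [← neg_sub q z, map_neg] at h14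
      linarith
    have h11 := key _ (E.add_mem hz hy) h8
    have h12 := key _ (E.sub_mem hz hy) h9
    rw [add_sub_cancel_left] at h11
    rw [sub_sub_cancel_left, map_neg, norm_neg] at h12
    linarith

theorem isAsplund_of [CompleteSpace X]
    (h : ∀ S : Set X, TopologicalSpace.IsSeparable S → Appr ℵ₀ S) : IsAsplund X := by
  intro U f hU hf hc
  let O : ℕ → Set X := fun n => interior {z | z ∈ U ∧ ∃ δ > 0, ∀ y, ‖y‖ < δ →
    f (z + y) + f (z - y) - 2 * f z ≤ 1 / ((n : ℝ) + 1) * ‖y‖}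
  have hO : ∀ n, U ⊆ closure (O n) := by
    intro n x hx
    rw [mem_closure_iff]
    intro W hW hxW
    obtain ⟨a, r, hr, h1, h2⟩ := exists_ball h hU hf hc (hW.inter hU) inter_subset_right
      ⟨x, hxW, hx⟩ (show 0 < 1 / ((n : ℝ) + 1) by positivity)
    refine ⟨a, (h1 (Metric.mem_ball_self hr)).1,
      interior_maximal (fun z hz => ?_) Metric.isOpen_ball (Metric.mem_ball_self hr)⟩
    refine ⟨(h1 hz).2, r - dist z a, sub_pos.2 hz, fun y hy => h2 z y hz ?_ ?_⟩
    · have := dist_triangle (z + y) z a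
      rw [dist_self_add_left] at this
      rw [Metric.mem_ball]
      linarith
    · have := dist_triangle (z - y) z a
      rw [dist_self_sub_left] at this
      rw [Metric.mem_ball]
      linarith
  refine ⟨⋂ n, O n, fun x hx => (interior_subset (mem_iInter.1 hx 0)).1,
    IsGδ.iInter_of_isOpen fun n => isOpen_interior, ?_, fun x hx => ?_⟩
  · have h1 : Dense (⋂ n, O n ∪ interior Uᶜ) := by
      refine dense_iInter_of_isOpen (fun n => isOpen_interior.union isOpen_interior) fun n x => ?_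
      by_cases hx : x ∈ closure U
      · exact closure_mono subset_union_left (closure_minimal (hO n) isClosed_closure hx)
      · exact subset_closure (Or.inr (by rwa [interior_compl]))
    refine (h1.open_subset_closure_inter hU).trans (closure_mono fun x hx => mem_iInter.2 fun n =>
      (mem_iInter.1 hx.2 n).resolve_right fun h2 => interior_subset h2 hx.1)
  · have hxU : x ∈ U := (interior_subset (mem_iInter.1 hx 0)).1
    obtain ⟨φ, hφ⟩ := exists_subgradient hU hf hc hxU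
    refine HasFDerivAt.differentiableAt (f' := φ) ?_
    rw [hasFDerivAt_iff_isLittleO_nhds_zero, Asymptotics.isLittleO_iff]
    intro ε hε
    obtain ⟨n, hn⟩ := exists_nat_one_div_lt hε
    obtain ⟨-, δ, hδ, h1⟩ := interior_subset (mem_iInter.1 hx n)
    obtain ⟨r, hr, h2⟩ := Metric.isOpen_iff.1 hU x hxU
    filter_upwards [Metric.ball_mem_nhds (0 : X) (lt_min hδ hr)] with y hy
    rw [mem_ball_zero_iff, lt_min_iff] at hy
    have h3 := h1 y hy.1
    have h4 := hφ (x + y) (h2 (by rw [Metric.mem_ball, dist_self_add_left]; exact hy.2))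
    have h5 := hφ (x - y) (h2 (by rw [Metric.mem_ball, dist_self_sub_left]; exact hy.2))
    rw [add_sub_cancel_left] at h4
    rw [sub_sub_cancel_left, map_neg] at h5
    rw [Real.norm_eq_abs, abs_of_nonneg (by linarith)]
    nlinarith [norm_nonneg y]

end Vale.Agent.N129
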