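import Vale.Agent.N129.Range

/-! A separable quotient gives an unbounded closed densely defined operator on the space. -/

open Set Filter Topology

namespace Vale.Agent.N129

open Vale.Agent.P129Z.S Vale.Agent.P129

universe u

variable {𝕜 : Type} [RCLike 𝕜] {X : Type u} [NormedAddCommGroup X] [NormedSpace 𝕜 X]

theorem not_finite_of_hasSQ (h : HasSeparableQuotient 𝕜 X) : ¬ FiniteDimensional 𝕜 X := by
  obtain ⟨M, -, -, hd⟩ := h
  exact fun _ => hd inferInstance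

/-- An infinite-dimensional closed subspace with a total sequence of functionals. -/
theorem exists_total (h : ¬ FiniteDimensional 𝕜 X) :
    ∃ (Y : Submodule 𝕜 X) (t : ℕ → StrongDual 𝕜 X), IsClosed (Y : Set X) ∧
      ¬ FiniteDimensional 𝕜 Y ∧ ∀ y ∈ Y, (∀ n, t n y = 0) → y = 0 := by
  obtain ⟨R, v, -, -, hv⟩ := exists_seq_norm_le_one_le_norm_sub h
  obtain ⟨w, hw⟩ : ∃ w : ℕ → X, LinearIndependent 𝕜 w := by
    have h1 : Cardinal.aleph0 ≤ Module.rank 𝕜 X := by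
      by_contra h2
      exact h (Module.rank_lt_aleph0_iff.1 (not_le.1 h2))
    let b := Module.Basis.ofVectorSpace 𝕜 X
    have h3 : Infinite (Module.Basis.ofVectorSpaceIndex 𝕜 X) := by
      rw [Cardinal.infinite_iff, b.mk_eq_rank'']
      exact h1
    exact ⟨b ∘ Infinite.natEmbedding _, b.linearIndependent.comp _ (Infinite.natEmbedding _).2⟩
  let Y := (Submodule.span 𝕜 (range w)).topologicalClosure
  have h1 : TopologicalSpace.IsSeparable (Y : Set X) :=
    (countable_range w).isSeparable.span.closure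
  obtain ⟨c, hc, hYc⟩ := h1
  obtain ⟨d, hd⟩ := (hc.insert 0).exists_eq_range (insert_nonempty _ _)
  choose t ht1 ht2 using fun n => exists_dual_vector'' 𝕜 (d n)
  refine ⟨Y, t, Submodule.isClosed_topologicalClosure _, fun hf => ?_, fun y hy h0 => ?_⟩
  · have h2 : LinearIndependent 𝕜 fun n => (⟨w n, Submodule.le_topologicalClosure _
        (Submodule.subset_span ⟨n, rfl⟩)⟩ : Y) := LinearIndependent.of_comp Y.subtype hw
    have := h2.finite
    exact _root_.not_finite ℕ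
  · rw [← norm_le_zero_iff]
    refine le_of_forall_pos_le_add fun ε hε => ?_
    obtain ⟨z, hz, hzy⟩ := Metric.mem_closure_iff.1 (hYc hy) (ε / 2) (by positivity)
    obtain ⟨n, rfl⟩ : z ∈ range d := hd ▸ mem_insert_of_mem _ hz
    rw [dist_eq_norm] at hzy
    have h2 : ‖d n‖ ≤ ‖y - d n‖ := by
      have h3 := (t n).le_opNorm (y - d n)
      rw [map_sub, h0, ht2, zero_sub, norm_neg, RCLike.norm_ofReal, abs_norm] at h3
      exact h3.trans (mul_le_of_le_one_left (norm_nonneg _) (ht1 n))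
    have h3 : ‖y‖ ≤ ‖y - d n‖ + ‖d n‖ := by simpa using norm_add_le (y - d n) (d n)
    linarith

theorem exists_triangular (Y : Submodule 𝕜 X) (hY : ¬ FiniteDimensional 𝕜 Y)
    (t : ℕ → StrongDual 𝕜 X) : ∃ (y : ℕ → X) (s : ℕ → StrongDual 𝕜 X), (∀ n, y n ∈ Y) ∧
      (∀ n, ‖y n‖ = 1) ∧ (∀ n, ‖s n‖ ≤ 1) ∧ (∀ n, s n (y n) = 1) ∧
      ∀ m n, m < n → t m (y n) = 0 ∧ s m (y n) = 0 := by
  classical
  obtain ⟨p, hp1, hp2⟩ := exists_seq_of_forall_finset_exists
    (fun p : ℕ × X × StrongDual 𝕜 X => p.2.1 ∈ Y ∧ ‖p.2.1‖ = 1 ∧ ‖p.2.2‖ ≤ 1 ∧ p.2.2 p.2.1 = 1 ∧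
      ∀ m < p.1, t m p.2.1 = 0) (fun p q => p.1 < q.1 ∧ p.2.2 q.2.1 = 0) (by
    intro S _
    let k := S.sup (fun p => p.1) + 1
    let L : Y →ₗ[𝕜] (Fin k → 𝕜) × (S → 𝕜) :=
      (LinearMap.pi fun m : Fin k => (t m : X →ₗ[𝕜] 𝕜).comp Y.subtype).prod
        (LinearMap.pi fun p : S => (p.1.2.2 : X →ₗ[𝕜] 𝕜).comp Y.subtype)
    obtain ⟨z, hz, hz0⟩ : ∃ z : Y, L z = 0 ∧ z ≠ 0 := by
      by_contra h1
      push Not at h1
      exact hY (FiniteDimensional.of_injective L ((injective_iff_map_eq_zero L).2 h1))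
    have h1 : ‖(z : X)‖ ≠ 0 := fun h2 => hz0 (Subtype.ext (norm_eq_zero.1 h2))
    have h2 : ‖((‖(z : X)‖⁻¹ : ℝ) : 𝕜) • (z : X)‖ = 1 := by
      rw [norm_smul, RCLike.norm_ofReal, abs_inv, abs_norm, inv_mul_cancel₀ h1]
    obtain ⟨g, hg1, hg2⟩ := exists_dual_vector'' 𝕜 (((‖(z : X)‖⁻¹ : ℝ) : 𝕜) • (z : X))
    refine ⟨(k, ((‖(z : X)‖⁻¹ : ℝ) : 𝕜) • (z : X), g), ⟨Y.smul_mem _ z.2, h2, hg1, ?_, ?_⟩, ?_⟩
    · rw [hg2, h2, RCLike.ofReal_one]
    · intro m hm
      have h3 : t m z = 0 := congrFun (congrArg Prod.fst hz) ⟨m, hm⟩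
      rw [map_smul, h3, smul_zero]
    · intro q hq
      have h3 : q.2.2 z = 0 := congrFun (congrArg Prod.snd hz) ⟨q, hq⟩
      refine ⟨Nat.lt_succ_of_le (Finset.le_sup (f := fun p => p.1) hq), ?_⟩
      rw [map_smul, h3, smul_zero])
  have h1 : StrictMono fun n => (p n).1 := fun m n h => (hp2 m n h).1
  exact ⟨fun n => (p n).2.1, fun n => (p n).2.2, fun n => (hp1 n).1, fun n => (hp1 n).2.1,
    fun n => (hp1 n).2.2.1, fun n => (hp1 n).2.2.2.1, fun m n h =>
      ⟨(hp1 n).2.2.2.2 m (h.trans_le (h1.id_le n)), (hp2 m n h).2⟩⟩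

/-- the functional `x ↦ ∑ n ≤ m, 3 ^ n g (y n) f n x` -/
noncomputable def comb (f : ℕ → StrongDual 𝕜 X) (y : ℕ → X) (g : StrongDual 𝕜 X) (m : ℕ) :
    StrongDual 𝕜 X := ∑ n ∈ Finset.range (m + 1), ((3 : 𝕜) ^ n * g (y n)) • f n

theorem sum_three (m : ℕ) : 2 * ∑ n ∈ Finset.range m, (3 : ℝ) ^ n ≤ 3 ^ m := by
  induction m with
  | zero => simp
  | succ m ih => rw [Finset.sum_range_succ, pow_succ]; linarith

theorem le_norm_comb {f : ℕ → StrongDual 𝕜 X} (hf : ∀ n, ‖f n‖ = 1) {y : ℕ → X}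
    (hy : ∀ n, ‖y n‖ = 1) {g : StrongDual 𝕜 X} (hg : ‖g‖ ≤ 1) {m : ℕ} (hm : g (y m) = 1) :
    3 ^ m ≤ 2 * ‖comb f y g m‖ := by
  have h1 : ‖∑ n ∈ Finset.range m, ((3 : 𝕜) ^ n * g (y n)) • f n‖ ≤
      ∑ n ∈ Finset.range m, (3 : ℝ) ^ n := by
    refine (norm_sum_le _ _).trans (Finset.sum_le_sum fun n _ => ?_)
    have h2 := g.le_opNorm (y n)
    rw [hy, mul_one] at h2
    rw [norm_smul, hf, mul_one, norm_mul, norm_pow, RCLike.norm_ofNat]
    exact mul_le_of_le_one_right (by positivity) (h2.trans hg)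
  have h2 : ‖((3 : 𝕜) ^ m * g (y m)) • f m‖ = 3 ^ m := by
    rw [norm_smul, hf, hm, mul_one, mul_one, norm_pow, RCLike.norm_ofNat]
  have h3 := norm_sub_le (comb f y g m) (∑ n ∈ Finset.range m, ((3 : 𝕜) ^ n * g (y n)) • f n)
  rw [comb, Finset.sum_range_succ, add_sub_cancel_left, h2, ← Finset.sum_range_succ] at h3
  have h4 := sum_three m
  rw [comb]
  linarith

theorem apply_sum_eq_comb {f : ℕ → StrongDual 𝕜 X} {y : ℕ → X} {g : StrongDual 𝕜 X} {m N : ℕ}
    (hg : ∀ n, m < n → g (y n) = 0) {x : X} (hx : ∀ n, N ≤ n → f n x = 0) :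
    g (∑ n ∈ Finset.range N, ((3 : 𝕜) ^ n * f n x) • y n) = comb f y g m x := by
  rw [comb, map_sum, ContinuousLinearMap.sum_apply]
  have h1 : ∀ K, N ≤ K → ∑ n ∈ Finset.range N, g (((3 : 𝕜) ^ n * f n x) • y n) =
      ∑ n ∈ Finset.range K, (3 : 𝕜) ^ n * f n x * g (y n) := by
    intro K hK
    simp only [map_smul, smul_eq_mul]
    refine Finset.sum_subset (Finset.range_subset_range.2 hK) fun n _ hn => ?_
    rw [hx n (by simpa using hn), mul_zero, zero_mul]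
  rw [h1 (N + (m + 1)) (Nat.le_add_right _ _)]
  symm
  have h2 : ∀ n, (((3 : 𝕜) ^ n * g (y n)) • f n) x = (3 : 𝕜) ^ n * f n x * g (y n) := by
    intro n
    rw [ContinuousLinearMap.smul_apply, smul_eq_mul]
    ring
  simp only [h2]
  refine Finset.sum_subset (Finset.range_subset_range.2 (Nat.le_add_left _ _)) fun n _ hn => ?_
  rw [hg n (by rw [Finset.mem_range] at hn; omega), mul_zero]

/-- A separable quotient gives an unbounded closed densely defined operator. -/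
theorem exists_unbounded (h : HasSeparableQuotient 𝕜 X) :
    ∃ A : X →ₗ.[𝕜] X, A.IsClosed ∧ Dense (A.domain : Set X) ∧ ¬ Continuous A := by
  obtain ⟨f, hf, hd⟩ := exists_functionals h
  obtain ⟨Y, t, hY, hYd, ht⟩ := exists_total (not_finite_of_hasSQ h)
  obtain ⟨y, s, hy1, hy2, hs1, hs2, hts⟩ := exists_triangular Y hYd t
  let G : Submodule 𝕜 (X × X) :=
    { carrier := {p | p.2 ∈ Y ∧ ∀ m, t m p.2 = comb f y (t m) m p.1 ∧
        s m p.2 = comb f y (s m) m p.1}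
      add_mem' := fun {p q} hp hq => ⟨Y.add_mem hp.1 hq.1, fun m => by
        simp only [Prod.fst_add, Prod.snd_add, map_add, (hp.2 m).1, (hp.2 m).2, (hq.2 m).1,
          (hq.2 m).2, and_self]⟩
      zero_mem' := ⟨Y.zero_mem, fun m => by simp⟩
      smul_mem' := fun c p hp => ⟨Y.smul_mem c hp.1, fun m => by
        simp only [Prod.smul_fst, Prod.smul_snd, map_smul, (hp.2 m).1, (hp.2 m).2, and_self]⟩ }
  have hG : ∀ p ∈ G, p.1 = 0 → p.2 = 0 := fun p hp h0 => ht _ hp.1 fun m => by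
    rw [(hp.2 m).1, h0, map_zero]
  have hgr : G.toLinearPMap.graph = G := G.toLinearPMap_graph_eq fun p hp h0 => hG p hp h0
  have hden : Dense (G.toLinearPMap.domain : Set X) := by
    refine hd.mono fun x hx => ?_
    obtain ⟨N, hN⟩ := eventually_atTop.1 hx
    refine ⟨(x, ∑ n ∈ Finset.range N, ((3 : 𝕜) ^ n * f n x) • y n), ⟨?_, fun m => ⟨?_, ?_⟩⟩, rfl⟩
    · change ∑ n ∈ Finset.range N, ((3 : 𝕜) ^ n * f n x) • y n ∈ Y
      exact Y.sum_mem fun n _ => Y.smul_mem _ (hy1 n)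
    · exact apply_sum_eq_comb (fun n hn => (hts m n hn).1) hN
    · exact apply_sum_eq_comb (fun n hn => (hts m n hn).2) hN
  refine ⟨G.toLinearPMap, ?_, hden, fun hc => ?_⟩
  · change IsClosed (G.toLinearPMap.graph : Set (X × X))
    rw [hgr]
    change IsClosed {p : X × X | p.2 ∈ Y ∧ ∀ m, t m p.2 = comb f y (t m) m p.1 ∧
        s m p.2 = comb f y (s m) m p.1}
    refine (hY.preimage continuous_snd).inter ?_
    change IsClosed {p : X × X | ∀ m, t m p.2 = comb f y (t m) m p.1 ∧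
        s m p.2 = comb f y (s m) m p.1}
    rw [setOf_forall]
    exact isClosed_iInter fun m => (isClosed_eq (by fun_prop) (by fun_prop)).inter
      (isClosed_eq (by fun_prop) (by fun_prop))
  · let A : G.toLinearPMap.domain →L[𝕜] X := ⟨G.toLinearPMap.toFun, hc⟩
    have h1 : ∀ m, ‖comb f y (s m) m‖ ≤ ‖A‖ := by
      intro m
      refine ContinuousLinearMap.opNorm_le_bound _ (norm_nonneg _) fun x => ?_
      refine Dense.induction hden (P := fun x => ‖comb f y (s m) m x‖ ≤ ‖A‖ * ‖x‖)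
        (fun x hx => ?_) (isClosed_le (by fun_prop) (by fun_prop)) x
      have h2 : (x, A ⟨x, hx⟩) ∈ G := by
        have h3 := G.toLinearPMap.mem_graph ⟨x, hx⟩
        rw [hgr] at h3
        exact h3
      rw [← (h2.2 m).2]
      exact ((s m).le_opNorm _).trans ((mul_le_of_le_one_left (norm_nonneg _) (hs1 m)).trans
        (A.le_opNorm ⟨x, hx⟩))
    obtain ⟨m, hm⟩ := pow_unbounded_of_one_lt (2 * ‖A‖) (show (1 : ℝ) < 3 by norm_num)
    have h2 := le_norm_comb hf hy2 (hs1 m) (hs2 m)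
    have h3 := h1 m
    linarith

/-- A separable quotient gives a proper dense operator range. -/
theorem exists_range [CompleteSpace X] (h : HasSeparableQuotient 𝕜 X) :
    ∃ (Y : Type u) (_ : NormedAddCommGroup Y) (_ : NormedSpace 𝕜 Y) (_ : CompleteSpace Y)
      (T : Y →L[𝕜] X), DenseRange T ∧ ¬ Function.Surjective T := by
  obtain ⟨A, hA, hd, hc⟩ := exists_unbounded h
  have : CompleteSpace A.graph := (show IsClosed (A.graph : Set (X × X)) from hA).completeSpace_coe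
  refine ⟨A.graph, inferInstance, inferInstance, inferInstance,
    (ContinuousLinearMap.fst 𝕜 X X).comp A.graph.subtypeL, Dense.mono (by
      intro x hx
      exact ⟨⟨(x, A ⟨x, hx⟩), A.mem_graph ⟨x, hx⟩⟩, rfl⟩) hd, fun h1 => hc ?_⟩
  refine continuous_of_top A hA ?_
  rw [eq_top_iff]
  intro x _
  obtain ⟨p, rfl⟩ := h1 x
  obtain ⟨y, hy, -⟩ := (A.mem_graph_iff).1 p.2
  change p.1.1 ∈ _
  rw [← hy]
  exact y.2

end Vale.Agent.N129
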