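import Vale.Agent.P129B.Meas
import Mathlib.ModelTheory.Satisfiability
import Mathlib.Analysis.Calculus.FDeriv.Defs
import Mathlib.Analysis.Convex.Function
import Mathlib.Topology.GDelta.Basic
import Mathlib.Topology.Algebra.Module.LinearPMap
import Mathlib.Analysis.Normed.Module.Dual
import Mathlib.Analysis.Normed.Group.Quotient

/-! Definitions: Asplund spaces; ZFC as a first-order theory in the sense of Mathlib. In a formula
the variable bound by the outermost quantifier is `0`, the next one is `1`, and so on. -/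

namespace Vale.Agent.N129

open FirstOrder FirstOrder.Language Vale.Agent.P323.Z

universe u

/-- `X` is an Asplund space: every continuous convex function on an open set `U` is Fréchet
differentiable at all points of a `Gδ` subset of `U` which is dense in `U`. -/
def IsAsplund (X : Type*) [NormedAddCommGroup X] [NormedSpace ℝ X] : Prop :=
  ∀ (U : Set X) (f : X → ℝ), IsOpen U → ConvexOn ℝ U f → ContinuousOn f U →
    ∃ G ⊆ U, IsGδ G ∧ U ⊆ closure G ∧ ∀ x ∈ G, DifferentiableAt ℝ f x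

/-- Every infinite-dimensional Banach space over `𝕜` has a separable infinite-dimensional
quotient. -/
def SQ (𝕜 : Type) [RCLike 𝕜] : Prop :=
  ∀ (X : Type u) [NormedAddCommGroup X] [NormedSpace 𝕜 X] [CompleteSpace X],
    ¬ FiniteDimensional 𝕜 X → P129Z.S.HasSeparableQuotient 𝕜 X

/-- The dual of `X` has a norm dense subset with at most `ℵ₁` elements. -/
def SmallDual (𝕜 : Type) [RCLike 𝕜] (X : Type u) [NormedAddCommGroup X] [NormedSpace 𝕜 X] :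
    Prop :=
  ∃ D : Set (StrongDual 𝕜 X), Dense D ∧ Cardinal.mk D ≤ Cardinal.aleph 1

/-- Every bounded operator from `Y` to `X` with dense range is onto. -/
def OntoIfDense (𝕜 : Type) [RCLike 𝕜] (X : Type u) [NormedAddCommGroup X] [NormedSpace 𝕜 X]
    (Y : Type u) [NormedAddCommGroup Y] [NormedSpace 𝕜 Y] : Prop :=
  ∀ T : Y →L[𝕜] X, DenseRange T → Function.Surjective T

/-- Every closed densely defined operator in `X` is bounded. -/
def ClosedBounded (𝕜 : Type) [RCLike 𝕜] (X : Type u) [NormedAddCommGroup X] [NormedSpace 𝕜 X] :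
    Prop :=
  ∀ A : X →ₗ.[𝕜] X, A.IsClosed → Dense (A.domain : Set X) → Continuous A

/-- For every closed subspace `Z` of `X`, one of `Z`, `X/Z` has a separable infinite-dimensional
quotient. -/
def SubOrQuot (𝕜 : Type) [RCLike 𝕜] (X : Type u) [NormedAddCommGroup X] [NormedSpace 𝕜 X] :
    Prop :=
  ∀ (Z : Submodule 𝕜 X) [IsClosed (Z : Set X)],
    P129Z.S.HasSeparableQuotient 𝕜 Z ∨ P129Z.S.HasSeparableQuotient 𝕜 (X ⧸ Z)

/-- The membership relation of a structure. -/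
def el (M : Type*) [LSet.Structure M] (x y : M) : Prop :=
  Structure.RelMap (L := LSet) MemSymb.mem ![x, y]

/-- `xᵢ ∈ xⱼ`, below `k` quantifiers -/
def mem {α : Type} (k : ℕ) (i j : Fin k) : LSet.BoundedFormula α k :=
  Relations.boundedFormula₂ MemSymb.mem (&i) (&j)

/-- `xᵢ = xⱼ`, below `k` quantifiers -/
def eq {α : Type} (k : ℕ) (i j : Fin k) : LSet.BoundedFormula α k := &i =' &j

/-- `φ` with `n` parameters, and with the variables `r 0, r 1, …` in its other `m` places -/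
def app {n m : ℕ} (φ : LSet.Formula (Fin n ⊕ Fin m)) (k : ℕ) (r : Fin m → Fin k) :
    LSet.BoundedFormula (Empty ⊕ Fin n) k := BoundedFormula.relabel (Sum.map Sum.inr r) φ

/-- Extensionality -/
def ext : LSet.Sentence := ∀' ∀' (∀' (mem 3 2 0 ⇔ mem 3 2 1) ⟹ eq 2 0 1)

/-- Foundation -/
def fnd : LSet.Sentence := ∀' (∃' mem 2 1 0 ⟹ ∃' (mem 2 1 0 ⊓ ∀' (mem 3 2 0 ⟹ ∼(mem 3 2 1))))

/-- Pairing -/
def pair : LSet.Sentence := ∀' ∀' ∃' ∀' (mem 4 3 2 ⇔ eq 4 3 0 ⊔ eq 4 3 1)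

/-- Union -/
def uni : LSet.Sentence := ∀' ∃' ∀' (mem 3 2 1 ⇔ ∃' (mem 4 3 0 ⊓ mem 4 2 3))

/-- Power set -/
def pow : LSet.Sentence := ∀' ∃' ∀' (mem 3 2 1 ⇔ ∀' (mem 4 3 2 ⟹ mem 4 3 0))

/-- Infinity -/
def inf : LSet.Sentence := ∃' (∃' (mem 2 1 0 ⊓ ∀' ∼(mem 3 2 1)) ⊓
  ∀' (mem 2 1 0 ⟹ ∃' (mem 3 2 0 ⊓ ∀' (mem 4 3 2 ⇔ mem 4 3 1 ⊔ eq 4 3 1))))

/-- Choice: a set of nonempty pairwise disjoint sets has a transversal -/
def ac : LSet.Sentence := ∀' (∀' (mem 2 1 0 ⟹ ∃' mem 3 2 1) ⟹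
  ∀' ∀' ∀' (mem 4 1 0 ⟹ mem 4 2 0 ⟹ mem 4 3 1 ⟹ mem 4 3 2 ⟹ eq 4 1 2) ⟹
  ∃' ∀' (mem 3 2 0 ⟹ ∃' (mem 4 3 2 ⊓ mem 4 3 1 ⊓ ∀' (mem 5 4 2 ⟹ mem 5 4 1 ⟹ eq 5 4 3))))

/-- Separation for `φ`, universally closed -/
noncomputable def sep {n : ℕ} (φ : LSet.Formula (Fin n ⊕ Fin 1)) : LSet.Sentence :=
  Formula.iAlls (Fin n) (∀' ∃' ∀' (mem 3 2 1 ⇔ mem 3 2 0 ⊓ app φ 3 ![2]))

/-- Replacement for `φ`, universally closed -/
noncomputable def rep {n : ℕ} (φ : LSet.Formula (Fin n ⊕ Fin 2)) : LSet.Sentence :=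
  Formula.iAlls (Fin n)
    (∀' (∀' (mem 2 1 0 ⟹ ∃' (app φ 3 ![1, 2] ⊓ ∀' (app φ 4 ![1, 3] ⟹ eq 4 3 2))) ⟹
      ∃' ∀' (mem 3 2 1 ⇔ ∃' (mem 4 3 0 ⊓ app φ 4 ![3, 2]))))

/-- The axioms of ZFC. -/
def ZFC : LSet.Theory :=
  {ext, fnd, pair, uni, pow, inf, ac} ∪ {ψ | ∃ n φ, ψ = sep (n := n) φ} ∪
    {ψ | ∃ n φ, ψ = rep (n := n) φ}

end Vale.Agent.N129
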