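import Vale.Agent.N129.Asplund
import Vale.Agent.P129.H446.Main

/-! The counterexample is an Asplund space whose dual has density at most `ℵ₁`. -/

open Set Filter Topology Cardinal

namespace Vale.Agent.N129

open Vale.Agent.P129Z.S Vale.Agent.P129 H448

universe u

variable {𝓑 : H168.BranchSystem frame} (G : H168.Generators 𝓑)

/-- evaluation at a vector of `V` -/
noncomputable def ev (v : V) : StrongDual ℝ (XT G) :=
  LinearMap.mkContinuous ((ContinuousLinearMap.apply ℝ ℝ v : StrongDual ℝ V →ₗ[ℝ] ℝ).comp (incX G))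
    ‖v‖ fun x => by
      rw [mul_comm, ← norm_incX]
      exact (incX G x).le_opNorm v

theorem ev_apply (v : V) (x : XT G) : ev G v x = incX G x v := rfl

theorem exists_ev (f : StrongDual ℝ (XT G)) : ∃ v, ∀ x, f x = incX G x v :=
  H168.dualIsV frame 𝓑 G (f : XT G →ₗ[ℝ] ℝ) ‖f‖ fun z => f.le_opNorm z

theorem appr_of {κ : Cardinal.{0}} {S : Set (XT G)} (D : Set V) (hD : #D ≤ κ)
    (h : ∀ v, ∃ w ∈ closure D, ∀ x ∈ S, incX G x v = incX G x w) : Appr κ S := by
  refine ⟨D, fun d => ev G d, hD, fun f ε hε => ?_⟩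
  obtain ⟨v, hv⟩ := exists_ev G f
  obtain ⟨w, hw, h1⟩ := h v
  obtain ⟨d, hd, h2⟩ := Metric.mem_closure_iff.1 hw ε hε
  refine ⟨⟨d, hd⟩, fun x hx => ?_⟩
  rw [hv, h1 x hx, ev_apply, ← map_sub, mul_comm]
  refine ((incX G x).le_opNorm _).trans ?_
  rw [norm_incX, ← dist_eq_norm]
  exact mul_le_mul_of_nonneg_left h2.le (norm_nonneg _)

theorem appr_univ : Appr (ℵ_ 1) (univ : Set (XT G)) := by
  obtain ⟨D, hD, h1⟩ := H189.exists_dense_mk_eq V
  refine appr_of G D (h1.le.trans ((H189.dens_le_of_dense_span _ frame.denseSpan).trans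
    (max_le (Cardinal.mk_range_le.trans mk_W.le) (Cardinal.aleph0_le_aleph 1)))) fun v =>
    ⟨v, hD v, fun _ _ => rfl⟩

theorem P_mem (a : W) (v : V) :
    frame.P a v ∈ closure (Submodule.span ℝ (frame.e '' Iio a) : Set V) := by
  refine map_mem_closure (frame.P a).continuous (frame.denseSpan v) fun w hw => ?_
  induction hw using Submodule.span_induction with
  | mem x hx =>
    obtain ⟨b, rfl⟩ := hx
    rw [frame.P_e]
    split_ifs with h
    · exact Submodule.subset_span ⟨b, h, rfl⟩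
    · exact Submodule.zero_mem _
  | zero => rw [map_zero]; exact Submodule.zero_mem _
  | add x y _ _ hx hy => rw [map_add]; exact Submodule.add_mem _ hx hy
  | smul c x _ hx => rw [map_smul]; exact Submodule.smul_mem _ _ hx

theorem appr_lt (a : W) : Appr ℵ₀ (Submodule.span ℝ (yX G '' Iio a) : Set (XT G)) := by
  obtain ⟨D, hD, h1⟩ := (((countable_Iio a).image frame.e).isSeparable.span (R := ℝ)).closure
  refine appr_of G D (Cardinal.le_aleph0_iff_set_countable.2 hD) fun v =>
    ⟨frame.P a v, h1 (P_mem a v), fun x hx => (G.span_P ?_ v).symm⟩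
  have h2 := Submodule.mem_map_of_mem (f := incX G) hx
  rwa [Submodule.map_span, image_image] at h2

theorem exists_lt (x : XT G) : ∃ a, x ∈ closure (Submodule.span ℝ (yX G '' Iio a) : Set (XT G)) := by
  obtain ⟨s, hs, hx⟩ := mem_closure_iff_seq_limit.1 (dense_span_y G x)
  have h1 : ∀ n, ∃ a, s n ∈ Submodule.span ℝ (yX G '' Iio a) := by
    intro n
    obtain ⟨T, hT, h2⟩ := Submodule.mem_span_finite_of_mem_span (hs n)
    choose m hm using fun t : T => hT t.2
    obtain ⟨a, ha⟩ := exists_gt_of_countable (range m) (countable_range m)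
    refine ⟨a, Submodule.span_mono (fun t ht => ?_) h2⟩
    exact ⟨m ⟨t, ht⟩, ha _ ⟨_, rfl⟩, hm ⟨t, ht⟩⟩
  choose a ha using h1
  obtain ⟨b, hb⟩ := exists_gt_of_countable (range a) (countable_range a)
  exact ⟨b, mem_closure_of_tendsto hx (Eventually.of_forall fun n =>
    Submodule.span_mono (image_mono (Iio_subset_Iio (hb _ ⟨n, rfl⟩).le)) (ha n))⟩

theorem good_XT : Good (XT G) := by
  refine ⟨?_, appr_univ G⟩
  rintro S ⟨c, hc, hS⟩
  choose a ha using exists_lt G
  obtain ⟨b, hb⟩ := exists_gt_of_countable (a '' c) (hc.image a)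
  refine (appr_lt G b).closure.mono (hS.trans (closure_minimal (fun x hx => ?_) isClosed_closure))
  exact closure_mono (SetLike.coe_subset_coe.2
    (Submodule.span_mono (image_mono (Iio_subset_Iio (hb _ ⟨x, hx, rfl⟩).le)))) (ha x)

theorem exists_real (h : H189.nonMeagre = ℵ_ 1) :
    ∃ (X : Type) (_ : NormedAddCommGroup X) (_ : NormedSpace ℝ X) (_ : CompleteSpace X),
      ¬ FiniteDimensional ℝ X ∧ ¬ HasSeparableQuotient ℝ X ∧ Good X := by
  obtain ⟨𝓕, h𝓕⟩ := H471.exists_family (C := 3072) h fun l x hb => by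
    obtain ⟨z, a, b, hz⟩ := H560.exists_zseq hb
    exact H200.pairSupply hb hz
  obtain ⟨G, hG⟩ := H223.exists_generators frame 𝓕.system
  have h1 := H3.no_quotient_prod (H223.projSystem frame exists_gt_of_countable) countable_Iio
    (Submodule.span ℝ (Set.range frame.e))
    (fun a b hab w hwa hwb ε hε => H223.frame_dense_interval frame a b hab w hwa hwb ε hε) G.X
    (H223.hdual_of_lin G.X fun f C hf => H168.dualIsV frame 𝓕.system G f C hf)
    (H223.supply_of_kills (kills_system h𝓕) G hG)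
  exact ⟨XT G, inferInstance, inferInstance, completeSpace_XT G, not_finite_XT G, h1.1, good_XT G⟩

theorem exists_good (h : H189.nonMeagre = ℵ_ 1) (𝕜 : Type) [RCLike 𝕜] :
    ∃ (X : Type u) (_ : NormedAddCommGroup X) (_ : NormedSpace 𝕜 X) (_ : CompleteSpace X),
      ¬ FiniteDimensional 𝕜 X ∧ ¬ HasSeparableQuotient 𝕜 X ∧
        @Good X _ (NormedSpace.restrictScalars ℝ 𝕜 X) := by
  obtain ⟨X, _, _, _, h1, h2, h3⟩ := exists_real h
  have h4 := H3.extension_no_quotient (𝕜 := 𝕜) h2 fun h5 => (hasSQ_prod h5).elim h2 h2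
  let _ := NormedSpace.restrictScalars ℝ 𝕜 (H3.Cx 𝕜 X)
  have h5 : Good (H3.Cx 𝕜 X) := by
    rcases RCLike.I_eq_zero_or_im_I_eq_one (K := 𝕜) with hI | hI
    · exact h3.congr (H3.Cx.equivSelf hI)
    · exact (h3.prod h3).congr (H3.Cx.equivProd hI)
  refine ⟨ULift.{u} (H3.Cx 𝕜 X), inferInstance, inferInstance, inferInstance, fun h6 =>
    H3.extension_not_finite (𝕜 := 𝕜) h1
      (Module.Finite.equiv (ULift.moduleEquiv : ULift.{u} (H3.Cx 𝕜 X) ≃ₗ[𝕜] H3.Cx 𝕜 X)),
    fun h6 => h4 (H3.hasSep_ulift h6), ?_⟩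
  let _ := NormedSpace.restrictScalars ℝ 𝕜 (ULift.{u} (H3.Cx 𝕜 X))
  exact h5.congr
    { toFun := ULift.down
      map_add' := fun _ _ => rfl
      map_smul' := fun _ _ => rfl
      invFun := ULift.up
      left_inv := fun _ => rfl
      right_inv := fun _ => rfl
      continuous_toFun := continuous_uliftDown
      continuous_invFun := continuous_uliftUp }

end Vale.Agent.N129
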