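import Vale.Agent.N129.Logic
import Vale.Agent.N129.Space
import Vale.Agent.P129Z.Faith
import Vale.Agent.P129BC1.Faith
import Vale.Agent.P129BL.ErdF

/-! Assembly. -/

namespace Vale.Agent.N129

open FirstOrder FirstOrder.Language Vale.Agent.P323.Z Vale.Agent.P129Z.S Vale.Agent.P129B.S
  Cardinal Vale.Agent.P129

universe u

theorem indep : ∃ r c m e : LSet.Sentence,
    (∀ (M : Type) [LSet.Structure M], (M ⊨ r ↔ SQReal (el M)) ∧ (M ⊨ c ↔ SQComplex (el M)) ∧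
      (M ⊨ m ↔ HasMeasurable (el M)) ∧ (M ⊨ e ↔ HasErdos (el M))) ∧
    ¬ ZFC ⊨ᵇ r ∧ ¬ ZFC ⊨ᵇ c ∧
    ((ZFC ∪ {m}).IsSatisfiable ∨ (ZFC ∪ {e}).IsSatisfiable →
      (ZFC ∪ {r, c}).IsSatisfiable ∧ ¬ ZFC ⊨ᵇ r.not ∧ ¬ ZFC ⊨ᵇ c.not) := by
  obtain ⟨r, hr⟩ := P129Z.FO.exists_sentence_real.{0}
  obtain ⟨c, hc⟩ := P129Z.FO.exists_sentence_complex.{0}
  obtain ⟨m, hm⟩ := P129BL.exists_sentence_meas.{0}
  obtain ⟨e, he⟩ := P129BL.exists_sentence_erdos.{0}
  have h : ∀ (M : Type) [LSet.Structure M], (M ⊨ (r : LSet.Sentence) ↔ SQReal (el M)) ∧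
      (M ⊨ (c : LSet.Sentence) ↔ SQComplex (el M)) ∧
      (M ⊨ (m : LSet.Sentence) ↔ HasMeasurable (el M)) ∧
      (M ⊨ (e : LSet.Sentence) ↔ HasErdos (el M)) :=
    fun M _ => ⟨(sentence_iff _).trans (hr M _), (sentence_iff _).trans (hc M _),
      (sentence_iff _).trans (hm M _), (sentence_iff _).trans (he M _)⟩
  obtain ⟨M, E, h1, h2, h3⟩ := P129Z.exists_model_not_sq
  refine ⟨r, c, m, e, h, fun k => ?_, fun k => ?_, fun k => ?_⟩
  · let _ := memStructure E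
    have : Nonempty M := ⟨h1.1.infinity.choose⟩
    have : M ⊨ ZFC := models_iff.2 h1
    exact h2 ((h M).1.1 (k.realize_sentence M))
  · let _ := memStructure E
    have : Nonempty M := ⟨h1.1.infinity.choose⟩
    have : M ⊨ ZFC := models_iff.2 h1
    exact h3 ((h M).2.1.1 (k.realize_sentence M))
  · obtain ⟨N, F, k1, k2, k3, -⟩ : ∃ (N : Type) (F : N → N → Prop), IsZFCModel F ∧ SQReal F ∧
        SQComplex F ∧ True := by
      rcases k with ⟨⟨M'⟩⟩ | ⟨⟨M'⟩⟩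
      · obtain ⟨a, b⟩ := Theory.model_union_iff.1 M'.is_model
        obtain ⟨N, F, k1, k2, k3, -⟩ := P129B.exists_model_sq (models_iff.1 a)
          (Or.inl ((h M').2.2.1.1 (Theory.model_singleton_iff.1 b)))
        exact ⟨N, F, k1, k2, k3, trivial⟩
      · obtain ⟨a, b⟩ := Theory.model_union_iff.1 M'.is_model
        obtain ⟨N, F, k1, k2, k3, -⟩ := P129B.exists_model_sq (models_iff.1 a)
          (Or.inr ((h M').2.2.2.1 (Theory.model_singleton_iff.1 b)))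
        exact ⟨N, F, k1, k2, k3, trivial⟩
    let _ := memStructure F
    have : Nonempty N := ⟨k1.1.infinity.choose⟩
    have k4 : N ⊨ ZFC := models_iff.2 k1
    have k5 := (h N).1.2 k2
    have k6 := (h N).2.1.2 k3
    refine ⟨?_, fun p => (Sentence.realize_not N).1 (p.realize_sentence N) k5,
      fun p => (Sentence.realize_not N).1 (p.realize_sentence N) k6⟩
    have : N ⊨ ZFC ∪ {(r : LSet.Sentence), c} := by
      refine Theory.model_union_iff.2 ⟨k4, (Theory.model_iff _).2 ?_⟩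
      rintro ψ (rfl | rfl)
      exacts [k5, k6]
    exact Theory.Model.isSatisfiable N

theorem nonvacuous (M : Type) [LSet.Structure M] (h : M ⊨ ZFC) :
    (∃ R K X, IsReals (el M) R ∧ IsRealScalars (el M) R K ∧ IsBanach (el M) R K X ∧
      ¬ FiniteDim (el M) K X) ∧
    (∃ R K X, IsReals (el M) R ∧ IsComplexScalars (el M) R K ∧ IsBanach (el M) R K X ∧
      ¬ FiniteDim (el M) K X) := by
  have k := models_iff.1 h
  let _ : P129B.ZM M := ⟨el M, k.1, k.2⟩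
  exact ⟨P129B.exists_infinite_dim_real M, P129B.exists_infinite_dim_complex M⟩

theorem faithful [LSet.Structure ZFSet.{u}] (h : ∀ x y, el ZFSet.{u} x y ↔ x ∈ y) :
    ZFSet.{u} ⊨ ZFC ∧
    (SQReal (el ZFSet.{u}) ↔
      ∀ (X : Type u) [NormedAddCommGroup X] [NormedSpace ℝ X] [CompleteSpace X],
        ¬ FiniteDimensional ℝ X → HasSeparableQuotient ℝ X) ∧
    (SQComplex (el ZFSet.{u}) ↔
      ∀ (X : Type u) [NormedAddCommGroup X] [NormedSpace ℂ X] [CompleteSpace X],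
        ¬ FiniteDimensional ℂ X → HasSeparableQuotient ℂ X) ∧
    (HasMeasurable (el ZFSet.{u}) ↔ ∃ κ : Cardinal.{u}, IsMeasurableCardinal κ) ∧
    (HasErdos (el ZFSet.{u}) ↔ ∃ κ : Cardinal.{u}, ErdosArrow κ) := by
  have h1 : el ZFSet.{u} = fun x y : ZFSet.{u} => x ∈ y :=
    funext fun x => funext fun y => propext (h x y)
  rw [models_iff, h1]
  exact ⟨⟨P129Z.zf_isZFModel, P129Z.zmZFSet.ac⟩, P129Z.faithful_real, P129Z.faithful_complex,
    P129B.faithful_measurable', P129BL.faithful_erdos⟩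

theorem nonMeagre_iff : (∃ S : Set ℝ, #S = ℵ₁ ∧ ¬ IsMeagre S) ↔ H189.nonMeagre = ℵ₁ := by
  constructor
  · rintro ⟨S, h1, h2⟩
    exact le_antisymm (csInf_le' ⟨S, h2, h1⟩) H3.aleph_one_le_nonMeagre
  · intro h
    obtain ⟨S, h1, h2⟩ := H189.nonMeagre_mem
    exact ⟨S, h2.trans h, h1⟩

theorem of_CH (h : 𝔠 = (ℵ₁ : Cardinal.{0})) : ∃ S : Set ℝ, #S = ℵ₁ ∧ ¬ IsMeagre S :=
  nonMeagre_iff.2 (H3.nonMeagre_eq_of_CH h)

/-- the density of a space is at most the density of its dual -/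
theorem dens_le_of_dual {𝕜 : Type} [RCLike 𝕜] {X : Type u} [NormedAddCommGroup X]
    [NormedSpace 𝕜 X] {D : Set (StrongDual 𝕜 X)} (hD : Dense D) : H189.dens X ≤ max #D ℵ₀ := by
  have h1 : ∀ f : StrongDual 𝕜 X, ∃ x, ‖x‖ ≤ 1 ∧ ‖f‖ / 2 ≤ ‖f x‖ := by
    intro f
    rcases (norm_nonneg f).eq_or_lt with h | h
    · exact ⟨0, by simp, by rw [← h]; simp⟩
    · obtain ⟨x, hx, h2⟩ := f.exists_lt_apply_of_lt_opNorm (r := ‖f‖ / 2) (by linarith)
      exact ⟨x, hx.le, h2.le⟩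
  choose x hx1 hx2 using h1
  refine (H189.dens_le_of_dense_span (𝕜 := 𝕜) (x '' D) ?_).trans
    (max_le_max Cardinal.mk_image_le le_rfl)
  by_contra h
  obtain ⟨φ, h2, h3⟩ := exists_norm_one_vanishing _ h
  obtain ⟨f, hf, h4⟩ := Metric.mem_closure_iff.1 (hD φ) (1 / 4) (by norm_num)
  rw [dist_eq_norm] at h4
  have h5 := (φ - f).le_opNorm (x f)
  rw [ContinuousLinearMap.sub_apply, h3 _ (Submodule.subset_span ⟨f, hf, rfl⟩), zero_sub,
    norm_neg] at h5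
  have h6 := norm_sub_norm_le φ f
  have h7 := hx1 f
  have h8 := hx2 f
  nlinarith [norm_nonneg (φ - f)]

theorem asplund_iff (𝕜 : Type) [RCLike 𝕜] :
    (∃ S : Set ℝ, #S = ℵ₁ ∧ ¬ IsMeagre S) ↔
      ∃ (X : Type u) (_ : NormedAddCommGroup X) (_ : NormedSpace 𝕜 X) (_ : CompleteSpace X),
        ¬ FiniteDimensional 𝕜 X ∧ ¬ HasSeparableQuotient 𝕜 X ∧
        (∃ D : Set (StrongDual 𝕜 X), Dense D ∧ #D ≤ ℵ₁) ∧
        (∀ Y : Submodule 𝕜 X, TopologicalSpace.SeparableSpace Y →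
          TopologicalSpace.SeparableSpace (StrongDual 𝕜 Y)) ∧
        @IsAsplund X _ (NormedSpace.restrictScalars ℝ 𝕜 X) := by
  rw [nonMeagre_iff]
  constructor
  · intro h
    obtain ⟨X, _, _, _, h1, h2, h3⟩ := exists_good.{u} h 𝕜
    let _ := NormedSpace.restrictScalars ℝ 𝕜 X
    have : IsScalarTower ℝ 𝕜 X := RestrictScalars.isScalarTower ℝ 𝕜 X
    refine ⟨X, _, _, ‹_›, h1, h2, ?_, fun Y hY => ?_, isAsplund_of h3.1⟩
    · obtain ⟨ι, g, h4, h5⟩ := Appr.dense_dual (⊤ : Submodule 𝕜 X) h3.2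
      let T : X →L[𝕜] (⊤ : Submodule 𝕜 X) :=
        (ContinuousLinearMap.id 𝕜 X).codRestrict ⊤ fun _ => trivial
      have h6 : Function.Surjective fun φ : StrongDual 𝕜 (⊤ : Submodule 𝕜 X) => φ.comp T :=
        fun f => ⟨f.comp (⊤ : Submodule 𝕜 X).subtypeL, rfl⟩
      refine ⟨Set.range fun i => (g i).comp T,
        h6.denseRange.comp h5 (by fun_prop), ?_⟩
      have h7 := Cardinal.mk_range_le_lift (f := fun i => (g i).comp T)
      rw [Cardinal.lift_id'] at h7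
      refine h7.trans ((Cardinal.lift_le.2 h4).trans (le_of_eq ?_))
      simp
    · obtain ⟨ι, g, h4, h5⟩ := Appr.dense_dual Y
        (h3.1 _ (TopologicalSpace.IsSeparable.of_subtype (Y : Set X)))
      have : Countable ι := Cardinal.mk_le_aleph0_iff.1 h4
      exact ⟨Set.range g, Set.countable_range g, h5⟩
  · rintro ⟨X, _, _, _, h1, h2, ⟨D, hD, h3⟩, -⟩
    refine le_antisymm ?_ H3.aleph_one_le_nonMeagre
    by_contra hlt
    rw [not_le] at hlt
    refine h2 (H3.hasSep_of_dens_lt (((dens_le_of_dual hD).trans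
      (max_le h3 (Cardinal.aleph0_le_aleph 1))).trans_lt ?_) h1)
    simpa using hlt

theorem asplund_iff' (𝕜 : Type) [RCLike 𝕜] :
    (∃ S : Set ℝ, #S = ℵ₁ ∧ ¬ IsMeagre S) ↔
      ∃ (X : Type u) (_ : NormedAddCommGroup X) (_ : NormedSpace 𝕜 X), CompleteSpace X ∧
        ¬ FiniteDimensional 𝕜 X ∧ @IsAsplund X _ (NormedSpace.restrictScalars ℝ 𝕜 X) ∧
        SmallDual 𝕜 X ∧ ¬ HasSeparableQuotient 𝕜 X := by
  constructor
  · intro h
    obtain ⟨X, _, _, h0, h1, h2, h3, -, h5⟩ := (asplund_iff.{u} 𝕜).1 h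
    exact ⟨X, _, _, h0, h1, h5, h3, h2⟩
  · rintro ⟨X, _, _, _, h1, -, ⟨D, hD, h3⟩, h2⟩
    by_contra k
    rw [nonMeagre_iff] at k
    have hlt := lt_of_le_of_ne H3.aleph_one_le_nonMeagre (Ne.symm k)
    refine h2 (H3.hasSep_of_dens_lt (((dens_le_of_dual hD).trans
      (max_le h3 (Cardinal.aleph0_le_aleph 1))).trans_lt ?_) h1)
    simpa using hlt

theorem structure_thm (𝕜 : Type) [RCLike 𝕜] (X : Type u) [NormedAddCommGroup X] [NormedSpace 𝕜 X]
    [CompleteSpace X] :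
    (¬ HasSeparableQuotient 𝕜 X ↔
      ∀ (Y : Type u) [NormedAddCommGroup Y] [NormedSpace 𝕜 Y] [CompleteSpace Y],
        OntoIfDense 𝕜 X Y) ∧
    (¬ HasSeparableQuotient 𝕜 X ↔ ClosedBounded 𝕜 X) ∧
    (HasSeparableQuotient 𝕜 X → SubOrQuot 𝕜 X) := by
  refine ⟨⟨fun h Y _ _ _ T => surjective_of_denseRange h T, fun h k => ?_⟩,
    ⟨fun h A => continuous_of_closed h A, fun h k => ?_⟩, fun h Z hZ => three_space Z hZ h⟩
  · obtain ⟨Y, _, _, _, T, h1, h2⟩ := exists_range k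
    exact h2 (h Y T h1)
  · obtain ⟨A, h1, h2, h3⟩ := exists_unbounded k
    exact h3 (h A h1 h2)

end Vale.Agent.N129
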