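import Vale.Agent.N129.Defs
import Vale.Agent.P129Z.Final
import Vale.Agent.P129Z.FO
import Vale.Agent.P129B.Final
import Vale.Agent.P129BL.Meas2

/-! The models of the theory `ZFC`, and the independence result. -/

namespace Vale.Agent.N129

open FirstOrder FirstOrder.Language Vale.Agent.P323.Z Vale.Agent.P129Z.S Vale.Agent.P129B.S

section choice

variable {M : Type*} {E : M → M → Prop}

/-- a set of nonempty pairwise disjoint sets has a transversal -/
def Zermelo (E : M → M → Prop) : Prop :=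
  ∀ F, (∀ A, E A F → ∃ x, E x A) → (∀ A B x, E A F → E B F → E x A → E x B → A = B) →
    ∃ b, ∀ A, E A F → ∃ x, (E x A ∧ E x b) ∧ ∀ y, E y A → E y b → y = x

theorem sepF (h : IsZFModel E) {n : ℕ} (φ : Fml (n + 1)) (v : Fin n → M) (a : M) :
    ∃ b, ∀ x, E x b ↔ E x a ∧ φ.Sat E (Fin.snoc v x) := by
  simpa only [P129Z.sat_toBF] using h.separation n (P129Z.toBF φ) v a

theorem repF (h : IsZFModel E) {n : ℕ} (φ : Fml (n + 2)) (v : Fin n → M) (a : M) :
    (∀ x, E x a → ∃! y, φ.Sat E (Fin.snoc (Fin.snoc v x : Fin (n + 1) → M) y)) →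
    ∃ b, ∀ y, E y b ↔ ∃ x, E x a ∧ φ.Sat E (Fin.snoc (Fin.snoc v x : Fin (n + 1) → M) y) := by
  simpa only [P129Z.sat_toBF] using h.replacement n (P129Z.toBF φ) v a

theorem zermelo_of_ac (h : IsZFModel E) (hc : AC E) : Zermelo E := by
  intro F h1 h2
  obtain ⟨c, U, hf, hc⟩ := hc F h1
  obtain ⟨b, hb⟩ := sepF h (Fml.ex (Fml.pairMemF Fml.la (Fml.up Fml.la) (Fml.up (Fml.up Fml.la))))
    (Fin.snoc (α := fun _ => M) Fin.elim0 c : Fin (0 + 1) → M) U
  simp only [Fml.sat_ex, Fml.sat_pairMemF, Fin.snoc_castSucc, Fin.snoc_last] at hb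
  have h3 : ∀ A x, PairMem E A x c → E A F ∧ E x U := by
    rintro A x ⟨p, hp, hpc⟩
    obtain ⟨A', x', h4, h5, h6⟩ := hf.pairs p hpc
    obtain ⟨rfl, rfl⟩ := P129Z.isOPair_inj hp h6
    exact ⟨h4, h5⟩
  refine ⟨b, fun A hA => ?_⟩
  obtain ⟨x, hx, hu⟩ := hf.value A hA
  refine ⟨x, ⟨hc A x hx, (hb x).2 ⟨(h3 A x hx).2, A, hx⟩⟩, fun y hy hyb => ?_⟩
  obtain ⟨-, B, hB⟩ := (hb y).1 hyb
  obtain rfl := h2 A B y hA (h3 B y hB).1 hy (hc B y hB)
  exact hu y hB

theorem existsUnique_opair (h : IsZFModel E) (x y : M) : ∃! p, IsOPair E p x y := by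
  have h1 : ∀ p q a b, IsUPair E p a b → IsUPair E q a b → p = q := fun p q a b hp hq =>
    h.extensionality p q fun z => (hp z).trans (hq z).symm
  obtain ⟨s, hs⟩ := h.pairing x x
  obtain ⟨t, ht⟩ := h.pairing x y
  obtain ⟨p, hp⟩ := h.pairing s t
  refine ⟨p, ⟨s, t, hs, ht, hp⟩, ?_⟩
  rintro q ⟨s', t', hs', ht', hq⟩
  obtain rfl := h1 _ _ _ _ hs hs'
  obtain rfl := h1 _ _ _ _ ht ht'
  exact h1 _ _ _ _ hq hp

theorem ac_of_zermelo (h : IsZFModel E) (hz : Zermelo E) : AC E := by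
  intro F h1
  have h2 : ∀ A, ∃! P, ∀ p, E p P ↔ ∃ x, E x A ∧ IsOPair E p A x := by
    intro A
    have h3 := repF h (Fml.opairF Fml.la (Fml.up (Fml.up Fml.la)) (Fml.up Fml.la))
      (Fin.snoc (α := fun _ => M) Fin.elim0 A : Fin (0 + 1) → M) A
    simp only [Fml.sat_opairF, Fin.snoc_castSucc, Fin.snoc_last] at h3
    obtain ⟨P, hP⟩ := h3 fun x _ => existsUnique_opair h A x
    exact ⟨P, hP, fun Q hQ => h.extensionality _ _ fun p => (hQ p).trans (hP p).symm⟩
  have h3 := repF h (n := 0) (Fml.all (Fml.iff (Fml.mem Fml.la (Fml.up Fml.la))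
    (Fml.ex (Fml.and (Fml.mem Fml.la (Fml.up (Fml.up (Fml.up Fml.la))))
      (Fml.opairF (Fml.up Fml.la) (Fml.up (Fml.up (Fml.up Fml.la))) Fml.la))))) Fin.elim0 F
  simp only [Fml.sat_all, Fml.sat_iff, Fml.sat_mem, Fml.sat_ex, Fml.sat_and, Fml.sat_opairF,
    Fin.snoc_castSucc, Fin.snoc_last] at h3
  obtain ⟨G, hG⟩ := h3 fun A _ => h2 A
  obtain ⟨b, hb⟩ := hz G (fun P hP => by
    obtain ⟨A, hA, h4⟩ := (hG P).1 hP
    obtain ⟨x, hx⟩ := h1 A hA
    obtain ⟨p, hp, -⟩ := existsUnique_opair h A x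
    exact ⟨p, (h4 p).2 ⟨x, hx, hp⟩⟩) (fun P Q p hP hQ hp hq => by
    obtain ⟨A, -, h4⟩ := (hG P).1 hP
    obtain ⟨B, -, h5⟩ := (hG Q).1 hQ
    obtain ⟨x, -, h6⟩ := (h4 p).1 hp
    obtain ⟨y, -, h7⟩ := (h5 p).1 hq
    obtain ⟨rfl, -⟩ := P129Z.isOPair_inj h6 h7
    exact h.extensionality _ _ fun z => (h4 z).trans (h5 z).symm)
  obtain ⟨U, hU⟩ := h.union F
  obtain ⟨c, hc⟩ := sepF h (Fml.ex (Fml.ex (Fml.and
      (Fml.mem (Fml.up Fml.la) (Fml.up (Fml.up (Fml.up Fml.la))))
      (Fml.and (Fml.mem Fml.la (Fml.up Fml.la))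
        (Fml.opairF (Fml.up (Fml.up Fml.la)) (Fml.up Fml.la) Fml.la)))))
    (Fin.snoc (α := fun _ => M) Fin.elim0 F : Fin (0 + 1) → M) b
  simp only [Fml.sat_mem, Fml.sat_ex, Fml.sat_and, Fml.sat_opairF,
    Fin.snoc_castSucc, Fin.snoc_last] at hc
  have h4 : ∀ A x, PairMem E A x c → E x A := by
    rintro A x ⟨p, hp, hpc⟩
    obtain ⟨-, A', x', -, h5, h6⟩ := (hc p).1 hpc
    obtain ⟨rfl, rfl⟩ := P129Z.isOPair_inj hp h6
    exact h5
  refine ⟨c, U, ⟨fun p hp => ?_, fun A hA => ?_⟩, h4⟩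
  · obtain ⟨-, A, x, h5, h6, h7⟩ := (hc p).1 hp
    exact ⟨A, x, h5, (hU x).2 ⟨A, h5, h6⟩, h7⟩
  · obtain ⟨P, hP, -⟩ := h2 A
    obtain ⟨p, ⟨h5, h6⟩, h7⟩ := hb P ((hG P).2 ⟨A, hA, hP⟩)
    obtain ⟨x, hx, h8⟩ := (hP p).1 h5
    refine ⟨x, ⟨p, h8, (hc p).2 ⟨h6, A, x, hA, hx, h8⟩⟩, fun y hy => ?_⟩
    have h9 := h4 A y hy
    obtain ⟨q, hq, hqc⟩ := hy
    obtain rfl := h7 q ((hP q).2 ⟨y, h9, hq⟩) ((hc q).1 hqc).1
    exact (P129Z.isOPair_inj hq h8).2

end choice

variable {M : Type*}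

theorem struct_eq [S : LSet.Structure M] : S = memStructure (el M) := by
  obtain ⟨f, r⟩ := S
  unfold memStructure
  congr 1
  · funext n g
    exact (g : Empty).elim
  · funext n s v
    cases s
    change r MemSymb.mem v = r MemSymb.mem ![v 0, v 1]
    congr 1
    funext i
    fin_cases i <;> rfl

theorem sat_iff [LSet.Structure M] {n : ℕ} (φ : LSet.BoundedFormula Empty n) (v : Fin n → M) :
    Sat (el M) φ v ↔ φ.Realize default v := by
  unfold Sat
  rw [← struct_eq, Subsingleton.elim (Empty.elim : Empty → M) default]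

theorem sentence_iff [LSet.Structure M] (φ : LSet.Sentence) :
    M ⊨ φ ↔ Sat (el M) φ Fin.elim0 := by
  rw [sat_iff, Subsingleton.elim (Fin.elim0 : Fin 0 → M) default]
  rfl

theorem realize_mem [LSet.Structure M] {α : Type} {k : ℕ} (i j : Fin k) (v : α → M)
    (x : Fin k → M) : (mem k i j : LSet.BoundedFormula α k).Realize v x ↔ el M (x i) (x j) := by
  exact BoundedFormula.realize_rel₂ (L := LSet) (R := MemSymb.mem)

theorem realize_eq [LSet.Structure M] {α : Type} {k : ℕ} (i j : Fin k) (v : α → M)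
    (x : Fin k → M) : (eq k i j : LSet.BoundedFormula α k).Realize v x ↔ x i = x j := by
  rw [eq, BoundedFormula.realize_bdEqual]
  rfl

theorem realize_app [LSet.Structure M] {n m k : ℕ} (φ : LSet.Formula (Fin n ⊕ Fin m))
    (r : Fin m → Fin k) (v : Empty ⊕ Fin n → M) (x : Fin k → M) :
    (app φ k r).Realize v x ↔ φ.Realize (Sum.elim (v ∘ Sum.inr) (x ∘ r)) := by
  rw [app, BoundedFormula.realize_relabel, Formula.Realize]
  refine iff_of_eq (congrArg₂ _ (funext fun i => ?_) (funext fun i => i.elim0))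
  cases i <;> rfl

theorem comp_one {α β : Type*} (f : α → β) (a : α) : f ∘ ![a] = ![f a] := by
  funext i
  fin_cases i
  rfl

theorem comp_two {α β : Type*} (f : α → β) (a b : α) : f ∘ ![a, b] = ![f a, f b] := by
  funext i
  fin_cases i <;> rfl

theorem exists_bf [LSet.Structure M] {n m : ℕ} (φ : LSet.Formula (Fin n ⊕ Fin m)) :
    ∃ ψ : LSet.BoundedFormula Empty (n + m), ∀ w : Fin (n + m) → M,
      Sat (el M) ψ w ↔ φ.Realize (w ∘ finSumFinEquiv) := by
  refine ⟨BoundedFormula.relabel (n := n + m) (k := 0) Sum.inr (φ.relabel finSumFinEquiv),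
    fun w => ?_⟩
  rw [sat_iff]
  exact (Formula.realize_relabel_sumInr _).trans Formula.realize_relabel

theorem exists_fm [LSet.Structure M] {n m : ℕ} (ψ : LSet.BoundedFormula Empty (n + m)) :
    ∃ φ : LSet.Formula (Fin n ⊕ Fin m), ∀ w : Fin (n + m) → M,
      Sat (el M) ψ w ↔ φ.Realize (w ∘ finSumFinEquiv) := by
  refine ⟨ψ.toFormula.relabel (Sum.elim Empty.elim finSumFinEquiv.symm), fun w => ?_⟩
  rw [sat_iff, Formula.realize_relabel, BoundedFormula.realize_toFormula]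
  refine iff_of_eq (congrArg₂ _ (funext fun i => i.elim) (funext fun i => ?_))
  simp

theorem snoc_one {n : ℕ} (v : Fin n → M) (x : M) :
    (Fin.snoc v x : Fin (n + 1) → M) ∘ finSumFinEquiv = Sum.elim v ![x] := by
  funext i
  rcases i with i | i
  · exact Fin.snoc_castSucc (α := fun _ => M) x v i
  · fin_cases i
    exact Fin.snoc_last (α := fun _ => M) x v

theorem snoc_two {n : ℕ} (v : Fin n → M) (x y : M) :
    (Fin.snoc (Fin.snoc v x : Fin (n + 1) → M) y : Fin (n + 2) → M) ∘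
      finSumFinEquiv (m := n) (n := 2) = Sum.elim v ![x, y] := by
  funext i
  rcases i with i | i
  · exact (Fin.snoc_castSucc (α := fun _ => M) y _ i.castSucc).trans
      (Fin.snoc_castSucc (α := fun _ => M) x v i)
  · fin_cases i
    · exact (Fin.snoc_castSucc (α := fun _ => M) y _ (Fin.last n)).trans
        (Fin.snoc_last (α := fun _ => M) x v)
    · exact Fin.snoc_last (α := fun _ => M) y _

theorem realize_sep [LSet.Structure M] {n : ℕ} (φ : LSet.Formula (Fin n ⊕ Fin 1)) :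
    M ⊨ sep φ ↔ ∀ (v : Fin n → M) (a : M), ∃ b, ∀ x, el M x b ↔
      el M x a ∧ φ.Realize (Sum.elim v ![x]) := by
  rw [sep, Sentence.Realize, Formula.realize_iAlls]
  refine forall_congr' fun v => ?_
  simp only [Formula.Realize, BoundedFormula.realize_all, BoundedFormula.realize_ex,
    BoundedFormula.realize_iff, BoundedFormula.realize_inf, realize_mem, realize_app,
    comp_one]
  rfl

theorem realize_rep [LSet.Structure M] {n : ℕ} (φ : LSet.Formula (Fin n ⊕ Fin 2)) :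
    M ⊨ rep φ ↔ ∀ (v : Fin n → M) (a : M),
      (∀ x, el M x a → ∃! y, φ.Realize (Sum.elim v ![x, y])) →
      ∃ b, ∀ y, el M y b ↔ ∃ x, el M x a ∧ φ.Realize (Sum.elim v ![x, y]) := by
  rw [rep, Sentence.Realize, Formula.realize_iAlls]
  refine forall_congr' fun v => ?_
  simp only [Formula.Realize, BoundedFormula.realize_all, BoundedFormula.realize_ex,
    BoundedFormula.realize_iff, BoundedFormula.realize_inf, BoundedFormula.realize_imp,
    realize_mem, realize_eq, realize_app, comp_two]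
  rfl

/-- The models of the theory `ZFC`. -/
theorem models_iff [LSet.Structure M] : M ⊨ ZFC ↔ IsZFCModel (el M) := by
  have e1 : M ⊨ ext ↔ ∀ x y, (∀ z, el M z x ↔ el M z y) → x = y := by
    simp only [ext, Sentence.Realize, Formula.Realize, BoundedFormula.realize_all,
      BoundedFormula.realize_iff, BoundedFormula.realize_imp, realize_mem, realize_eq]
    rfl
  have e2 : M ⊨ fnd ↔ ∀ x, (∃ y, el M y x) → ∃ y, el M y x ∧ ∀ z, el M z x → ¬ el M z y := by
    simp only [fnd, Sentence.Realize, Formula.Realize, BoundedFormula.realize_all,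
      BoundedFormula.realize_ex, BoundedFormula.realize_inf, BoundedFormula.realize_not,
      BoundedFormula.realize_imp, realize_mem]
    rfl
  have e3 : M ⊨ pair ↔ ∀ x y, ∃ p, ∀ z, el M z p ↔ z = x ∨ z = y := by
    simp only [pair, Sentence.Realize, Formula.Realize, BoundedFormula.realize_all,
      BoundedFormula.realize_ex, BoundedFormula.realize_iff, BoundedFormula.realize_sup,
      realize_mem, realize_eq]
    rfl
  have e4 : M ⊨ uni ↔ ∀ x, ∃ u, ∀ z, el M z u ↔ ∃ y, el M y x ∧ el M z y := by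
    simp only [uni, Sentence.Realize, Formula.Realize, BoundedFormula.realize_all,
      BoundedFormula.realize_ex, BoundedFormula.realize_iff, BoundedFormula.realize_inf,
      realize_mem]
    rfl
  have e5 : M ⊨ pow ↔ ∀ x, ∃ p, ∀ z, el M z p ↔ ∀ w, el M w z → el M w x := by
    simp only [pow, Sentence.Realize, Formula.Realize, BoundedFormula.realize_all,
      BoundedFormula.realize_ex, BoundedFormula.realize_iff, BoundedFormula.realize_imp,
      realize_mem]
    rfl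
  have e6 : M ⊨ inf ↔ ∃ w, (∃ e, el M e w ∧ ∀ z, ¬ el M z e) ∧
      ∀ x, el M x w → ∃ s, el M s w ∧ ∀ z, el M z s ↔ el M z x ∨ z = x := by
    simp only [inf, Sentence.Realize, Formula.Realize, BoundedFormula.realize_all,
      BoundedFormula.realize_ex, BoundedFormula.realize_iff, BoundedFormula.realize_inf,
      BoundedFormula.realize_sup, BoundedFormula.realize_not, BoundedFormula.realize_imp,
      realize_mem, realize_eq]
    rfl
  have e7 : M ⊨ ac ↔ Zermelo (el M) := by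
    simp only [ac, Sentence.Realize, Formula.Realize, BoundedFormula.realize_all,
      BoundedFormula.realize_ex, BoundedFormula.realize_inf, BoundedFormula.realize_imp,
      realize_mem, realize_eq]
    rfl
  rw [Theory.model_iff]
  constructor
  · intro h
    have h1 : IsZFModel (el M) := by
      refine ⟨e1.1 (h _ (by simp [ZFC])), e2.1 (h _ (by simp [ZFC])), e3.1 (h _ (by simp [ZFC])),
        e4.1 (h _ (by simp [ZFC])), e5.1 (h _ (by simp [ZFC])), e6.1 (h _ (by simp [ZFC])),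
        fun n ψ v a => ?_, fun n ψ v a => ?_⟩
      · obtain ⟨φ, hφ⟩ := exists_fm (M := M) (m := 1) ψ
        simpa only [hφ, snoc_one] using
          (realize_sep φ).1 (h _ (Or.inl (Or.inr ⟨n, φ, rfl⟩))) v a
      · obtain ⟨φ, hφ⟩ := exists_fm (M := M) (m := 2) ψ
        simpa only [hφ, snoc_two] using (realize_rep φ).1 (h _ (Or.inr ⟨n, φ, rfl⟩)) v a
    exact ⟨h1, ac_of_zermelo h1 (e7.1 (h _ (by simp [ZFC])))⟩
  · rintro ⟨h, hc⟩ ψ ((hψ | ⟨n, φ, rfl⟩) | ⟨n, φ, rfl⟩)
    · rcases hψ with rfl | rfl | rfl | rfl | rfl | rfl | rfl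
      exacts [e1.2 h.1, e2.2 h.2, e3.2 h.3, e4.2 h.4, e5.2 h.5, e6.2 h.6,
        e7.2 (zermelo_of_ac h hc)]
    · obtain ⟨ψ, hψ⟩ := exists_bf (M := M) φ
      refine (realize_sep φ).2 fun v a => ?_
      simpa only [hψ, snoc_one] using h.separation n ψ v a
    · obtain ⟨ψ, hψ⟩ := exists_bf (M := M) φ
      refine (realize_rep φ).2 fun v a => ?_
      simpa only [hψ, snoc_two] using h.replacement n ψ v a

end Vale.Agent.N129
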