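import Vale.Agent.N129.Final

open Cardinal
open Vale.Agent.P129Z.S Vale.Agent.N129

namespace Vale.Agent.N129.OldA0Asplund

universe u

/-- If some set of `ℵ₁` reals is not meagre, there is an infinite-dimensional Asplund space
without separable infinite-dimensional quotients whose dual has density at most `ℵ₁`. -/
theorem asplund_counterexample (𝕜 : Type) [RCLike 𝕜] (h : ∃ S : Set ℝ, #S = ℵ₁ ∧ ¬ IsMeagre S) :
    ∃ (X : Type u) (_ : NormedAddCommGroup X) (_ : NormedSpace 𝕜 X), CompleteSpace X ∧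
      ¬ FiniteDimensional 𝕜 X ∧ @IsAsplund X _ (NormedSpace.restrictScalars ℝ 𝕜 X) ∧
      SmallDual 𝕜 X ∧ ¬ HasSeparableQuotient 𝕜 X :=
  (asplund_iff' 𝕜).1 h

end Vale.Agent.N129.OldA0Asplund
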