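import Vale.Agent.P129.H189.Red
import Vale.Agent.P129Z.Stmt
import Mathlib.Topology.Algebra.Module.LinearPMap
import Mathlib.Analysis.Normed.Lp.lpSpace

/-! Separable quotients, operator ranges, closed operators and the three-space property. -/

open Set Filter Topology

namespace Vale.Agent.N129

open Vale.Agent.P129Z.S Vale.Agent.P129

universe u v

variable {𝕜 : Type} [RCLike 𝕜]

section

variable {X : Type u} [NormedAddCommGroup X] [NormedSpace 𝕜 X]
  {Y : Type v} [NormedAddCommGroup Y] [NormedSpace 𝕜 Y]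

/-- Without separable quotients, operators with dense range are onto. -/
theorem surjective_of_denseRange [CompleteSpace X] [CompleteSpace Y]
    (h : ¬ HasSeparableQuotient 𝕜 X) (T : Y →L[𝕜] X) (hT : DenseRange T) :
    Function.Surjective T := by
  by_contra hs
  have h1 : ∀ k : ℕ, ∃ F : X →L[𝕜] 𝕜, ‖F.comp T‖ ≤ 1 ∧ (k : ℝ) < ‖F‖ := by
    intro k
    have h2 : ¬ ∀ F : X →L[𝕜] 𝕜, (1 / ((k : ℝ) + 1)) * ‖F‖ ≤ ‖F.comp T‖ := fun h3 =>
      hs (surjective_of_adjoint_bounded_below T _ (by positivity) h3)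
    push Not at h2
    obtain ⟨F, hF⟩ := h2
    have hk : (0 : ℝ) < (k : ℝ) + 1 := by positivity
    have hF0 : 0 < ‖F‖ := by
      by_contra h4
      have h5 : ‖F‖ = 0 := le_antisymm (not_lt.1 h4) (norm_nonneg _)
      rw [h5, mul_zero] at hF
      exact absurd hF (not_lt.2 (norm_nonneg _))
    refine ⟨((((k : ℝ) + 1) / ‖F‖ : ℝ) : 𝕜) • F, ?_, ?_⟩
    · rw [ContinuousLinearMap.smul_comp, norm_smul, RCLike.norm_ofReal,
        abs_of_pos (by positivity), div_mul_eq_mul_div, div_le_one hF0]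
      rw [div_mul_eq_mul_div, one_mul, lt_div_iff₀ hk] at hF
      linarith
    · rw [norm_smul, RCLike.norm_ofReal, abs_of_pos (by positivity), div_mul_cancel₀ _ hF0.ne']
      linarith
  choose g hg1 hg2 using h1
  refine h (exists_separable_quotient_of_unbounded g (fun R => ?_) (Dense.mono ?_ hT))
  · obtain ⟨k, hk⟩ := exists_nat_gt R
    exact ⟨k, hk.trans (hg2 k)⟩
  · rintro _ ⟨y, rfl⟩
    refine ⟨‖y‖, fun k => ?_⟩
    have h2 := ((g k).comp T).le_opNorm y
    rw [ContinuousLinearMap.comp_apply] at h2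
    exact h2.trans (mul_le_of_le_one_left (norm_nonneg _) (hg1 k))

/-- Separable quotients lift along surjections. -/
theorem hasSQ_of_surjective [CompleteSpace X] [CompleteSpace Y] (T : X →L[𝕜] Y)
    (hT : Function.Surjective T) (h : HasSeparableQuotient 𝕜 Y) : HasSeparableQuotient 𝕜 X := by
  obtain ⟨M, hM, hs, hd⟩ := h
  exact exists_separable_quotient_of_surjective hd (M.mkQL.comp T)
    (M.mkQ_surjective.comp hT)

/-- A closed subspace of finite codimension is a quotient. -/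
theorem hasSQ_of_finite_codim [CompleteSpace X] (W : Submodule 𝕜 X) (hW : IsClosed (W : Set X))
    (hf : FiniteDimensional 𝕜 (X ⧸ W)) (h : HasSeparableQuotient 𝕜 W) :
    HasSeparableQuotient 𝕜 X := by
  have : CompleteSpace W := hW.completeSpace_coe
  obtain ⟨P, hP⟩ := Submodule.ClosedComplemented.of_quotient_finiteDimensional hW
  exact hasSQ_of_surjective P (fun w => ⟨w, hP w⟩) h

/-- **Three-space property.** -/
theorem three_space [CompleteSpace X] (Z : Submodule 𝕜 X) (hZ : IsClosed (Z : Set X))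
    (h : HasSeparableQuotient 𝕜 X) :
    HasSeparableQuotient 𝕜 Z ∨ HasSeparableQuotient 𝕜 (X ⧸ Z) := by
  by_contra hcon
  push Not at hcon
  obtain ⟨h1, h2⟩ := hcon
  obtain ⟨N, hN, hs, hd⟩ := h
  have : CompleteSpace Z := hZ.completeSpace_coe
  have : CompleteSpace N := hN.completeSpace_coe
  -- the image of `N` in `X ⧸ Z` and its closure `W`
  let T : N →L[𝕜] X ⧸ Z := Z.mkQL.comp N.subtypeL
  let W : Submodule 𝕜 (X ⧸ Z) := (LinearMap.range (T : N →ₗ[𝕜] X ⧸ Z)).topologicalClosure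
  have hW : IsClosed (W : Set (X ⧸ Z)) := Submodule.isClosed_topologicalClosure _
  have hTW : ∀ n, T n ∈ W := fun n => Submodule.le_topologicalClosure _ ⟨n, rfl⟩
  have : CompleteSpace W := hW.completeSpace_coe
  have hsep : TopologicalSpace.SeparableSpace ((X ⧸ Z) ⧸ W) := by
    let S : X ⧸ N →L[𝕜] (X ⧸ Z) ⧸ W := N.liftQL (W.mkQL.comp Z.mkQL) fun n hn =>
      (Submodule.Quotient.mk_eq_zero W).2 (hTW ⟨n, hn⟩)
    have hS : Function.Surjective S := by
      intro q
      obtain ⟨q, rfl⟩ := W.mkQ_surjective q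
      obtain ⟨x, rfl⟩ := Z.mkQ_surjective q
      exact ⟨N.mkQ x, rfl⟩
    exact hS.denseRange.separableSpace S.continuous
  have hfin : FiniteDimensional 𝕜 ((X ⧸ Z) ⧸ W) := by
    by_contra h3
    exact h2 ⟨W, hW, hsep, h3⟩
  have h3 : ¬ HasSeparableQuotient 𝕜 W := fun h4 => h2 (hasSQ_of_finite_codim W hW hfin h4)
  have h4 : Function.Surjective (T.codRestrict W hTW) := by
    refine surjective_of_denseRange h3 _ ?_
    rw [DenseRange, Subtype.dense_iff]
    refine closure_mono ?_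
    rintro _ ⟨n, rfl⟩
    exact ⟨_, ⟨n, rfl⟩, rfl⟩
  -- `U = N + Z` is closed of finite codimension
  let U : Submodule 𝕜 X := W.comap Z.mkQ
  have hU : IsClosed (U : Set X) := hW.preimage Z.mkQL.continuous
  have hNU : N ≤ U := fun n hn => hTW ⟨n, hn⟩
  have hUfin : FiniteDimensional 𝕜 (X ⧸ U) := by
    let L : (X ⧸ U) →ₗ[𝕜] (X ⧸ Z) ⧸ W := U.liftQ (W.mkQ.comp Z.mkQ) fun x hx =>
      (Submodule.Quotient.mk_eq_zero W).2 hx
    refine FiniteDimensional.of_injective L ?_
    rw [← LinearMap.ker_eq_bot]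
    refine Submodule.ker_liftQ_eq_bot _ _ _ fun x hx => ?_
    exact (Submodule.Quotient.mk_eq_zero W).1 hx
  -- the image `R` of `U` in `X ⧸ N`
  let R : Submodule 𝕜 (X ⧸ N) := U.map N.mkQ
  have hR : IsClosed (R : Set (X ⧸ N)) := by
    have hq : Topology.IsQuotientMap (N.mkQ : X → X ⧸ N) := isQuotientMap_quotient_mk'
    rw [← hq.isClosed_preimage]
    have : N.mkQ ⁻¹' (R : Set (X ⧸ N)) = U := by
      change ((R.comap N.mkQ : Submodule 𝕜 X) : Set X) = U
      rw [Submodule.comap_map_mkQ, sup_eq_right.2 hNU]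
    rwa [this]
  have : CompleteSpace R := hR.completeSpace_coe
  have hRinf : ¬ FiniteDimensional 𝕜 R := by
    intro h5
    have h6 : FiniteDimensional 𝕜 ((X ⧸ N) ⧸ R) :=
      Module.Finite.equiv (Submodule.quotientQuotientEquivQuotient N U hNU).symm
    exact hd (Module.Finite.of_submodule_quotient R)
  have hZU : ∀ z : Z, (N.mkQL.comp Z.subtypeL) z ∈ R := fun z =>
    ⟨z, by
      change Z.mkQ z ∈ W
      rw [show Z.mkQ (z : X) = 0 from (Submodule.Quotient.mk_eq_zero Z).2 z.2]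
      exact W.zero_mem, rfl⟩
  refine h1 (exists_separable_quotient_of_surjective hRinf
    ((N.mkQL.comp Z.subtypeL).codRestrict R hZU) ?_)
  rintro ⟨_, x, hx, rfl⟩
  obtain ⟨n, hn⟩ := h4 ⟨Z.mkQ x, hx⟩
  have h5 : Z.mkQ (n : X) = Z.mkQ x := congrArg Subtype.val hn
  have h6 : x - n ∈ Z := (Submodule.Quotient.eq Z).1 h5.symm
  refine ⟨⟨x - n, h6⟩, Subtype.ext ?_⟩
  change N.mkQ (x - n) = N.mkQ x
  rw [map_sub, show N.mkQ (n : X) = 0 from (Submodule.Quotient.mk_eq_zero N).2 n.2, sub_zero]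

/-- Products. -/
theorem hasSQ_prod [CompleteSpace X] [CompleteSpace Y] (h : HasSeparableQuotient 𝕜 (X × Y)) :
    HasSeparableQuotient 𝕜 X ∨ HasSeparableQuotient 𝕜 Y := by
  let Z : Submodule 𝕜 (X × Y) := LinearMap.ker (LinearMap.snd 𝕜 X Y)
  have hZ : IsClosed (Z : Set (X × Y)) := (ContinuousLinearMap.snd 𝕜 X Y).isClosed_ker
  have : CompleteSpace Z := hZ.completeSpace_coe
  refine (three_space Z hZ h).imp (fun h1 => ?_) fun h1 => ?_
  · refine hasSQ_of_surjective ((ContinuousLinearMap.inl 𝕜 X Y).codRestrict Z fun x => rfl)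
      ?_ h1
    rintro ⟨⟨x, y⟩, hy⟩
    have h2 : y = 0 := hy
    subst h2
    exact ⟨x, rfl⟩
  · refine hasSQ_of_surjective (Z.mkQL.comp (ContinuousLinearMap.inr 𝕜 X Y)) ?_ h1
    intro q
    obtain ⟨⟨x, y⟩, rfl⟩ := Z.mkQ_surjective q
    refine ⟨y, (Submodule.Quotient.eq Z).2 ?_⟩
    change y - y = 0
    exact sub_self y

/-- Without separable quotients, closed densely defined operators are bounded. -/
theorem domain_eq_top [CompleteSpace X] [CompleteSpace Y] (h : ¬ HasSeparableQuotient 𝕜 X)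
    (A : X →ₗ.[𝕜] Y) (hA : A.IsClosed) (hd : Dense (A.domain : Set X)) : A.domain = ⊤ := by
  have : CompleteSpace A.graph := (show IsClosed (A.graph : Set (X × Y)) from hA).completeSpace_coe
  have h1 := surjective_of_denseRange h
    ((ContinuousLinearMap.fst 𝕜 X Y).comp A.graph.subtypeL) (Dense.mono (by
      intro x hx
      exact ⟨⟨(x, A ⟨x, hx⟩), A.mem_graph ⟨x, hx⟩⟩, rfl⟩) hd)
  rw [eq_top_iff]
  intro x _
  obtain ⟨p, rfl⟩ := h1 x
  obtain ⟨y, hy, -⟩ := (A.mem_graph_iff).1 p.2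
  change p.1.1 ∈ _
  rw [← hy]
  exact y.2

theorem continuous_of_top [CompleteSpace X] [CompleteSpace Y] (A : X →ₗ.[𝕜] Y) (hA : A.IsClosed)
    (h1 : A.domain = ⊤) : Continuous A := by
  have h2 : IsClosed (A.domain : Set X) := by rw [h1]; exact isClosed_univ
  have : CompleteSpace A.domain := h2.completeSpace_coe
  refine A.toFun.continuous_of_isClosed_graph ?_
  have h3 : (A.toFun.graph : Set (A.domain × Y)) =
      (fun p : A.domain × Y => ((p.1 : X), p.2)) ⁻¹' (A.graph : Set (X × Y)) := by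
    ext ⟨x, y⟩
    simp only [SetLike.mem_coe, LinearMap.mem_graph_iff, mem_preimage, LinearPMap.mem_graph_iff]
    constructor
    · rintro rfl
      exact ⟨x, rfl, rfl⟩
    · rintro ⟨x', h4, h5⟩
      rw [← Subtype.ext h4]
      exact h5.symm
  rw [h3]
  exact (show IsClosed (A.graph : Set (X × Y)) from hA).preimage (by fun_prop)

theorem continuous_of_closed [CompleteSpace X] [CompleteSpace Y] (h : ¬ HasSeparableQuotient 𝕜 X)
    (A : X →ₗ.[𝕜] Y) (hA : A.IsClosed) (hd : Dense (A.domain : Set X)) : Continuous A :=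
  continuous_of_top A hA (domain_eq_top h A hA hd)

/-- The functionals given by a separable quotient. -/
theorem exists_functionals (h : HasSeparableQuotient 𝕜 X) :
    ∃ f : ℕ → StrongDual 𝕜 X, (∀ n, ‖f n‖ = 1) ∧ Dense {x | ∀ᶠ n in atTop, f n x = 0} := by
  obtain ⟨M, hM, hs, hd⟩ := h
  obtain ⟨d, hd'⟩ := TopologicalSpace.exists_dense_seq (X ⧸ M)
  have h1 : ∀ n, ∃ φ : (X ⧸ M) →L[𝕜] 𝕜, ‖φ‖ = 1 ∧
      ∀ x ∈ Submodule.span 𝕜 (d '' Iio n), φ x = 0 := by
    intro n
    refine exists_norm_one_vanishing _ fun h2 => hd ?_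
    have : FiniteDimensional 𝕜 (Submodule.span 𝕜 (d '' Iio n)) :=
      FiniteDimensional.span_of_finite 𝕜 ((finite_Iio n).image d)
    have h3 : Submodule.span 𝕜 (d '' Iio n) = ⊤ := by
      rw [← SetLike.coe_set_eq, ← (Submodule.closed_of_finiteDimensional _).closure_eq,
        h2.closure_eq]
      rfl
    exact Module.finite_def.2 (h3 ▸ (Submodule.fg_iff_finiteDimensional _).2 this)
  choose φ hφ1 hφ2 using h1
  have h2 : ∀ n, (φ n).comp M.mkQL ≠ 0 := by
    intro n h3
    have h4 : φ n = 0 := by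
      ext q
      obtain ⟨x, rfl⟩ := M.mkQ_surjective q
      exact congrArg (fun L : X →L[𝕜] 𝕜 => L x) h3
    have := hφ1 n
    rw [h4, norm_zero] at this
    exact zero_ne_one this
  refine ⟨fun n => ((‖(φ n).comp M.mkQL‖⁻¹ : ℝ) : 𝕜) • (φ n).comp M.mkQL, fun n => ?_, ?_⟩
  · rw [norm_smul, RCLike.norm_ofReal, abs_inv, abs_norm,
      inv_mul_cancel₀ (norm_ne_zero_iff.2 (h2 n))]
  · have h3 : Dense (M.mkQ ⁻¹' range d) := hd'.preimage M.isOpenMap_mkQ
    refine h3.mono ?_
    rintro x ⟨k, hk⟩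
    filter_upwards [eventually_gt_atTop k] with n hn
    have h4 : φ n (M.mkQ x) = 0 := hφ2 n _ (Submodule.subset_span ⟨k, hn, hk⟩)
    change ((‖(φ n).comp M.mkQL‖⁻¹ : ℝ) : 𝕜) • φ n (M.mkQ x) = 0
    rw [h4, smul_zero]

end

end Vale.Agent.N129
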